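import Vale.Agent.P312.Model
import Vale.Agent.P310.Num

/-!
# P310, package P8: a one-tape machine as a coded cellular automaton
-/

namespace Vale.Agent.P310

open P312

namespace P8

variable (M : OneTapeTM Bool)

/-- The symbols of the automaton. -/
abbrev Sy : Type := M.Γ ⊕ (M.Q × M.Γ)

variable {M}

open Classical in
/-- The content of a cell in a configuration. -/
noncomputable def cell (c : M.Cfg) (p : ℤ) : Sy M :=
  if p = c.pos then Sum.inr (c.q, c.tape p) else Sum.inl (c.tape p)

/-- The state coming in from the left neighbour. -/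
def fromLeft (s : Sy M) : Option M.Q :=
  match s with
  | .inl _ => none
  | .inr (q, γ) => match M.answer q with
    | some _ => none
    | none => match (M.trans q γ).2.2 with
      | .right => some (M.trans q γ).1
      | _ => none

/-- The state coming in from the right neighbour. -/
def fromRight (s : Sy M) : Option M.Q :=
  match s with
  | .inl _ => none
  | .inr (q, γ) => match M.answer q with
    | some _ => none
    | none => match (M.trans q γ).2.2 with
      | .left => some (M.trans q γ).1
      | _ => none

/-- The local rule. -/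
def rule (s₁ s₂ s₃ : Sy M) : Sy M :=
  match s₂ with
  | .inr (q, γ) => match M.answer q with
    | some _ => .inr (q, γ)
    | none => match (M.trans q γ).2.2 with
      | .stay => .inr ((M.trans q γ).1, (M.trans q γ).2.1)
      | _ => .inl (M.trans q γ).2.1
  | .inl γ => match fromLeft s₁ with
    | some q => .inr (q, γ)
    | none => match fromRight s₃ with
      | some q => .inr (q, γ)
      | none => .inl γ

lemma step_of_some {c : M.Cfg} {a : Bool} (ha : M.answer c.q = some a) : M.step c = c := by
  unfold OneTapeTM.step; rw [ha]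

lemma step_of_none {c : M.Cfg} (ha : M.answer c.q = none) :
    M.step c = { q := (M.trans c.q (c.tape c.pos)).1
                 pos := c.pos + (M.trans c.q (c.tape c.pos)).2.2.toInt
                 tape := Function.update c.tape c.pos (M.trans c.q (c.tape c.pos)).2.1 } := by
  unfold OneTapeTM.step; rw [ha]

lemma cell_of_eq {c : M.Cfg} {p : ℤ} (h : p = c.pos) : cell c p = Sum.inr (c.q, c.tape p) :=
  if_pos h

lemma cell_of_ne {c : M.Cfg} {p : ℤ} (h : p ≠ c.pos) : cell c p = Sum.inl (c.tape p) :=
  if_neg h

lemma cell_step_eq {c : M.Cfg} {p : ℤ} (ha : M.answer c.q = none)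
    (h : p = c.pos + (M.trans c.q (c.tape c.pos)).2.2.toInt) :
    cell (M.step c) p = Sum.inr ((M.trans c.q (c.tape c.pos)).1,
      Function.update c.tape c.pos (M.trans c.q (c.tape c.pos)).2.1 p) := by
  rw [step_of_none ha]
  exact cell_of_eq h

lemma cell_step_ne {c : M.Cfg} {p : ℤ} (ha : M.answer c.q = none)
    (h : p ≠ c.pos + (M.trans c.q (c.tape c.pos)).2.2.toInt) :
    cell (M.step c) p =
      Sum.inl (Function.update c.tape c.pos (M.trans c.q (c.tape c.pos)).2.1 p) := by
  rw [step_of_none ha]
  exact cell_of_ne h

lemma rule_cell (c : M.Cfg) (p : ℤ) :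
    rule (cell c (p - 1)) (cell c p) (cell c (p + 1)) = cell (M.step c) p := by
  cases ha : M.answer c.q with
  | some a =>
    rw [step_of_some ha]
    by_cases hp : p = c.pos
    · rw [cell_of_eq hp]
      simp only [rule, ha]
    · rw [cell_of_ne hp]
      have hl : fromLeft (cell c (p - 1)) = none := by
        by_cases h : p - 1 = c.pos
        · rw [cell_of_eq h]; simp only [fromLeft, ha]
        · rw [cell_of_ne h]; simp only [fromLeft]
      have hr : fromRight (cell c (p + 1)) = none := by
        by_cases h : p + 1 = c.pos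
        · rw [cell_of_eq h]; simp only [fromRight, ha]
        · rw [cell_of_ne h]; simp only [fromRight]
      simp only [rule, hl, hr]
  | none =>
    by_cases hp : p = c.pos
    · rw [cell_of_eq hp]
      subst hp
      cases hm : (M.trans c.q (c.tape c.pos)).2.2 with
      | left =>
        rw [cell_step_ne ha (by rw [hm]; simp [Move.toInt])]
        simp only [rule, ha, hm, Function.update_self]
      | stay =>
        rw [cell_step_eq ha (by rw [hm]; simp [Move.toInt])]
        simp only [rule, ha, hm, Function.update_self]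
      | right =>
        rw [cell_step_ne ha (by rw [hm]; simp [Move.toInt])]
        simp only [rule, ha, hm, Function.update_self]
    · rw [cell_of_ne hp]
      have hup : Function.update c.tape c.pos (M.trans c.q (c.tape c.pos)).2.1 p = c.tape p :=
        Function.update_of_ne hp _ _
      by_cases h1 : p - 1 = c.pos
      · rw [cell_of_eq h1, cell_of_ne (show p + 1 ≠ c.pos by omega), h1]
        cases hm : (M.trans c.q (c.tape c.pos)).2.2 with
        | left =>
          rw [cell_step_ne ha (by rw [hm]; simp only [Move.toInt]; omega), hup]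
          simp only [rule, fromLeft, fromRight, ha, hm]
        | stay =>
          rw [cell_step_ne ha (by rw [hm]; simp only [Move.toInt]; omega), hup]
          simp only [rule, fromLeft, fromRight, ha, hm]
        | right =>
          rw [cell_step_eq ha (by rw [hm]; simp only [Move.toInt]; omega), hup]
          simp only [rule, fromLeft, ha, hm]
      · by_cases h3 : p + 1 = c.pos
        · rw [cell_of_eq h3, cell_of_ne h1, h3]
          cases hm : (M.trans c.q (c.tape c.pos)).2.2 with
          | left =>
            rw [cell_step_eq ha (by rw [hm]; simp only [Move.toInt]; omega), hup]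
            simp only [rule, fromLeft, fromRight, ha, hm]
          | stay =>
            rw [cell_step_ne ha (by rw [hm]; simp only [Move.toInt]; omega), hup]
            simp only [rule, fromLeft, fromRight, ha, hm]
          | right =>
            rw [cell_step_ne ha (by rw [hm]; simp only [Move.toInt]; omega), hup]
            simp only [rule, fromLeft, fromRight, ha, hm]
        · rw [cell_of_ne h1, cell_of_ne h3, cell_step_ne ha, hup]
          · simp only [rule, fromLeft, fromRight]
          · cases hm : (M.trans c.q (c.tape c.pos)).2.2 <;> simp only [Move.toInt] <;> omega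

/-- Accepting symbols. -/
def isAcc (s : Sy M) : Prop :=
  match s with
  | .inl _ => False
  | .inr (q, _) => M.answer q = some true

/-! ### The word -/

section word

variable (E : ℕ) (cd : Sy M → ℕ)

/-- The positions of the ones of the word. -/
def bitP (i : ℕ) : Prop :=
  i < E ∨ (∃ s₁ s₂ s₃, i = E + 1 + (((cd s₁ * E + cd s₂) * E + cd s₃) * E + cd (rule s₁ s₂ s₃))) ∨
    ∃ s, isAcc s ∧ i = E + 1 + E * E * E * E + cd s

open Classical in
/-- The code word. -/
noncomputable def wd : List Bool :=
  List.ofFn (n := E + 1 + E * E * E * E + E) fun i => decide (bitP E cd i)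

lemma wd_length : (wd E cd).length = E + 1 + E * E * E * E + E := by
  unfold wd
  exact List.length_ofFn

/-- `w` starts with the code word. -/
def Good (w : List Bool) : Prop :=
  E + 1 + E * E * E * E + E ≤ w.length ∧
    ∀ i < E + 1 + E * E * E * E + E, (w[i]? = some true ↔ bitP E cd i)

lemma good_wd (pad : List Bool) : Good E cd (wd E cd ++ pad) := by
  classical
  refine ⟨by rw [List.length_append, wd_length]; omega, ?_⟩
  intro i hi
  have h1 : i < (wd E cd).length := by rw [wd_length]; exact hi
  rw [List.getElem?_append_left h1, List.getElem?_eq_getElem h1]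
  simp only [wd, List.getElem_ofFn, Option.some.injEq, decide_eq_true_eq]

variable {E} {cd}

lemma bitAt_eq_one {w : List Bool} (hw : Good E cd w) {i : ℕ}
    (hi : i < E + 1 + E * E * E * E + E) : bitAt w i = 1 ↔ bitP E cd i := by
  rw [← hw.2 i hi]
  unfold bitAt
  split_ifs with h <;> simp [h]

lemma bitAt_eq_zero {w : List Bool} (hw : Good E cd w) {i : ℕ}
    (hi : i < E + 1 + E * E * E * E + E) : bitAt w i = 0 ↔ ¬ bitP E cd i := by
  rw [← bitAt_eq_one hw hi]
  unfold bitAt
  split_ifs <;> simp

/-- Uniqueness of digits. -/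
lemma dig_inj {x y a b : ℕ} (ha : a < E) (hb : b < E) (h : x * E + a = y * E + b) :
    x = y ∧ a = b := by
  have hE : 0 < E := by omega
  have h1 : a = b := by
    have := congrArg (· % E) h
    simp only [Nat.mul_add_mod_self_right] at this
    rwa [Nat.mod_eq_of_lt ha, Nat.mod_eq_of_lt hb] at this
  subst h1
  exact ⟨Nat.eq_of_mul_eq_mul_right hE (by omega), rfl⟩

variable (hcd : ∀ s, cd s < E) (hinj : Function.Injective cd)

include hcd

omit hcd in
lemma dig_lt {x₁ x₂ x₃ x₄ : ℕ} (h1 : x₁ < E) (h2 : x₂ < E) (h3 : x₃ < E) (h4 : x₄ < E) :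
    ((x₁ * E + x₂) * E + x₃) * E + x₄ < E * E * E * E := by
  have e1 : x₁ * E + x₂ < E * E := by nlinarith
  have e2 : (x₁ * E + x₂) * E + x₃ < E * E * E := by nlinarith
  nlinarith

omit hcd in
lemma numSym_wd {w : List Bool} (hw : Good E cd w) : numSym w = E := by
  have hlen := hw.1
  have h0 : ∀ a, a < E → bitAt w a = 1 :=
    fun a ha => (bitAt_eq_one hw (by omega)).2 (Or.inl ha)
  have h1 : bitAt w E = 0 := by
    rw [bitAt_eq_zero hw (by omega)]
    rintro (h | ⟨s₁, s₂, s₃, h⟩ | ⟨s, _, h⟩)
    · omega
    · omega
    · omega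
  unfold numSym
  apply le_antisymm
  · exact Nat.sInf_le (Or.inl ⟨by omega, h1⟩)
  · refine le_csInf ⟨_, Or.inr rfl⟩ ?_
    rintro a (⟨_, h2⟩ | h2)
    · by_contra h3
      rw [h0 a (by omega)] at h2
      exact one_ne_zero h2
    · have h3 : a = w.length := h2
      omega

lemma acc_wd {w : List Bool} (hw : Good E cd w) (x : ℕ) :
    accOK w x ↔ ∃ s, isAcc s ∧ cd s = x := by
  unfold accOK
  rw [numSym_wd hw]
  constructor
  · rintro ⟨hx, h⟩
    rw [bitAt_eq_one hw (by omega)] at h
    rcases h with h | ⟨s₁, s₂, s₃, h⟩ | ⟨s, hs, h⟩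
    · omega
    · have := dig_lt (hcd s₁) (hcd s₂) (hcd s₃) (hcd (rule s₁ s₂ s₃))
      omega
    · exact ⟨s, hs, by omega⟩
  · rintro ⟨s, hs, rfl⟩
    have := hcd s
    exact ⟨this, (bitAt_eq_one hw (by omega)).2 (Or.inr (Or.inr ⟨s, hs, rfl⟩))⟩

include hinj

lemma tab_wd {w : List Bool} (hw : Good E cd w) (s₁ s₂ s₃ : Sy M) (x : ℕ) :
    tabOK w (cd s₁) (cd s₂) (cd s₃) x ↔ x = cd (rule s₁ s₂ s₃) := by
  unfold tabOK
  rw [numSym_wd hw]
  constructor
  · rintro ⟨_, _, _, hx, h⟩
    have hlt := dig_lt (hcd s₁) (hcd s₂) (hcd s₃) hx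
    rw [bitAt_eq_one hw (by omega)] at h
    rcases h with h | ⟨t₁, t₂, t₃, h⟩ | ⟨s, hs, h⟩
    · omega
    · have h1 := dig_inj hx (hcd (rule t₁ t₂ t₃)) (Nat.add_left_cancel h)
      have h2 := dig_inj (hcd s₃) (hcd t₃) h1.1
      have h3 := dig_inj (hcd s₂) (hcd t₂) h2.1
      rw [h1.2, hinj h3.1, hinj h3.2, hinj h2.2]
    · omega
  · rintro rfl
    have hlt := dig_lt (hcd s₁) (hcd s₂) (hcd s₃) (hcd (rule s₁ s₂ s₃))
    exact ⟨hcd _, hcd _, hcd _, hcd _, (bitAt_eq_one hw (by omega)).2
      (Or.inr (Or.inl ⟨s₁, s₂, s₃, rfl⟩))⟩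

lemma CAder_iff {w : List Bool} (hw : Good E cd w) (h0 : cd (.inl M.blank) = 0)
    (h1 : cd (.inl (M.embed false)) = 1) (h2 : cd (.inl (M.embed true)) = 2)
    (h3 : cd (.inr (M.start, M.embed true)) = 3) (t : ℕ) (p : ℤ) (x : ℕ) :
    CAder w t p x ↔ x = cd (cell (M.step^[t] (M.init w)) p) := by
  have hE : 3 < E := by have := hcd (.inr (M.start, M.embed true)); omega
  have hinit : ∀ p : ℤ, initAt w p = cd (cell (M.init w) p) := by
    intro p
    unfold initAt
    by_cases hp : 0 ≤ p ∧ p < w.length
    · rw [if_pos hp]
      have hlt : p.toNat < w.length := by omega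
      have htape : (M.init w).tape p = M.embed (w[p.toNat]'hlt) := by
        unfold OneTapeTM.init
        dsimp only
        rw [dif_pos ⟨hp.1, hlt⟩]
      unfold initSym
      by_cases hp0 : p = 0
      · have e1 : p = (M.init w).pos := hp0
        have e2 : p.toNat = 0 := by omega
        rw [if_pos e2, cell_of_eq e1, htape]
        have e3 : w[p.toNat]'hlt = true := by
          have e4 := (hw.2 p.toNat (by omega)).2 (Or.inl (by omega))
          rw [List.getElem?_eq_getElem hlt] at e4
          exact Option.some.inj e4
        rw [e3]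
        exact h3.symm
      · have e1 : ¬ p = (M.init w).pos := hp0
        rw [if_neg (by omega), cell_of_ne e1, htape]
        unfold bitAt
        rw [List.getElem?_eq_getElem hlt]
        cases hb : w[p.toNat]'hlt with
        | false => rw [h1]; simp
        | true => rw [h2]; simp
    · rw [if_neg hp]
      have htape : (M.init w).tape p = M.blank := by
        unfold OneTapeTM.init
        dsimp only
        rw [dif_neg]
        rintro ⟨h4, h5⟩
        exact hp ⟨h4, by omega⟩
      have e1 : ¬ p = (M.init w).pos := by
        show ¬ p = 0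
        have hlen := hw.1
        omega
      rw [cell_of_ne e1, htape, h0]
  constructor
  · intro h
    induction h with
    | init p => exact hinit p
    | step t p x₁ x₂ x₃ x₄ _ _ _ h ih₁ ih₂ ih₃ =>
      rw [ih₁, ih₂, ih₃, tab_wd hcd hinj hw] at h
      rw [h, rule_cell, Function.iterate_succ_apply']
  · intro h
    subst h
    induction t generalizing p with
    | zero => rw [Function.iterate_zero, id, ← hinit]; exact CAder.init p
    | succ t ih =>
      refine CAder.step t p _ _ _ _ (ih (p - 1)) (ih p) (ih (p + 1)) ?_
      rw [tab_wd hcd hinj hw, rule_cell, Function.iterate_succ_apply']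

end word

/-- A numbering of the symbols. -/
lemma exists_cd (M : OneTapeTM Bool) : ∃ (E : ℕ) (cd : Sy M → ℕ), (∀ s, cd s < E) ∧
    Function.Injective cd ∧ cd (.inl M.blank) = 0 ∧ cd (.inl (M.embed false)) = 1 ∧
    cd (.inl (M.embed true)) = 2 ∧ cd (.inr (M.start, M.embed true)) = 3 := by
  classical
  have := M.finQ
  have := M.finΓ
  have : Finite (Sy M) := inferInstance
  have : Fintype (Sy M) := Fintype.ofFinite _
  have n01 : M.blank ≠ M.embed false := (M.embed_ne_blank false).symm
  have n02 : M.blank ≠ M.embed true := (M.embed_ne_blank true).symm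
  have n12 : M.embed false ≠ M.embed true := fun h => Bool.noConfusion (M.embed_inj h)
  let s : Finset (Sy M) := {.inl M.blank, .inl (M.embed false), .inl (M.embed true),
    .inr (M.start, M.embed true)}
  let f : Sy M → ℕ := fun y => if y = .inl M.blank then 0 else if y = .inl (M.embed false) then 1
    else if y = .inl (M.embed true) then 2 else 3
  have f0 : f (.inl M.blank) = 0 := if_pos rfl
  have f1 : f (.inl (M.embed false)) = 1 := by
    have h : ¬ (Sum.inl (M.embed false) : Sy M) = .inl M.blank :=
      fun h => n01 (Sum.inl.inj h).symm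
    show (if _ then _ else _) = 1
    rw [if_neg h, if_pos rfl]
  have f2 : f (.inl (M.embed true)) = 2 := by
    have h : ¬ (Sum.inl (M.embed true) : Sy M) = .inl M.blank :=
      fun h => n02 (Sum.inl.inj h).symm
    have h' : ¬ (Sum.inl (M.embed true) : Sy M) = .inl (M.embed false) :=
      fun h => n12 (Sum.inl.inj h).symm
    show (if _ then _ else _) = 2
    rw [if_neg h, if_neg h', if_pos rfl]
  have f3 : f (.inr (M.start, M.embed true)) = 3 := by
    show (if _ then _ else _) = 3
    rw [if_neg (by simp), if_neg (by simp), if_neg (by simp)]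
  have hcard : 4 ≤ Fintype.card (Sy M) := by
    have h1 : s.card = 4 := by
      rw [Finset.card_eq_succ]
      refine ⟨.inl M.blank, {.inl (M.embed false), .inl (M.embed true),
        .inr (M.start, M.embed true)}, ?_, rfl, ?_⟩
      · simp [n01, n02]
      · rw [Finset.card_eq_succ]
        refine ⟨.inl (M.embed false), {.inl (M.embed true), .inr (M.start, M.embed true)}, ?_, rfl,
          ?_⟩
        · simp [n12]
        · rw [Finset.card_pair]
          simp
    rw [← h1]
    exact Finset.card_le_univ s
  obtain ⟨g, hg⟩ := Finset.exists_equiv_extend_of_card_eq (α := Sy M) (β := ℕ)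
    (t := Finset.range (Fintype.card (Sy M))) (by rw [Finset.card_range]) (s := s) (f := f)
    (by
      intro y hy
      rw [Finset.mem_image] at hy
      obtain ⟨z, _, rfl⟩ := hy
      rw [Finset.mem_range]
      have : f z ≤ 3 := by
        show (if _ then _ else _) ≤ 3
        split_ifs <;> omega
      omega)
    (by
      intro y hy z hz h
      simp only [s, Finset.coe_insert, Finset.coe_singleton, Set.mem_insert_iff,
        Set.mem_singleton_iff] at hy hz
      rcases hy with rfl | rfl | rfl | rfl <;> rcases hz with rfl | rfl | rfl | rfl <;>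
      simp only [f0, f1, f2, f3] at h <;> first | rfl | omega)
  refine ⟨Fintype.card (Sy M), fun y => (g y : ℕ), fun y => Finset.mem_range.1 (g y).2,
    fun y z h => g.injective (Subtype.ext h), ?_, ?_, ?_, ?_⟩
  · rw [← f0]; exact hg _ (by simp [s])
  · rw [← f1]; exact hg _ (by simp [s])
  · rw [← f2]; exact hg _ (by simp [s])
  · rw [← f3]; exact hg _ (by simp [s])

lemma abs_pos_le (w : List Bool) (s : ℕ) : |(M.step^[s] (M.init w)).pos| ≤ s := by
  induction s with
  | zero => show |(0 : ℤ)| ≤ _; simp
  | succ s ih =>
    rw [Function.iterate_succ_apply']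
    set c := M.step^[s] (M.init w)
    have h1 : |(M.step c).pos| ≤ |c.pos| + 1 := by
      cases ha : M.answer c.q with
      | some a => rw [step_of_some ha]; omega
      | none =>
        rw [step_of_none ha]
        dsimp only
        have : |(M.trans c.q (c.tape c.pos)).2.2.toInt| ≤ 1 := by
          cases (M.trans c.q (c.tape c.pos)).2.2 <;> simp [Move.toInt]
        exact (abs_add_le _ _).trans (by omega)
    push_cast
    omega

lemma answer_mono (w : List Bool) {s t : ℕ} (hst : s ≤ t) {a : Bool}
    (h : M.answer (M.step^[s] (M.init w)).q = some a) :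
    M.answer (M.step^[t] (M.init w)).q = some a := by
  induction t, hst using Nat.le_induction with
  | base => exact h
  | succ t _ ih =>
    rw [Function.iterate_succ_apply']
    rw [step_of_some ih]
    exact ih

end P8

open P8 in
/-- There is a code `pre` of the machine which may be followed by an arbitrary padding. -/
theorem exists_code (M : OneTapeTM Bool) : ∃ pre : List Bool, 4 ≤ pre.length ∧
    ∀ pad : List Bool,
    (∀ s, M.answer (M.step^[s] (M.init (pre ++ pad))).q = some true →
      ∃ t ≤ s, ∃ (p : ℤ) (x : ℕ), |p| ≤ t ∧ CAder (pre ++ pad) t p x ∧ accOK (pre ++ pad) x) ∧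
    (∀ s, M.answer (M.step^[s] (M.init (pre ++ pad))).q = some false →
      ∀ (t : ℕ) (p : ℤ) (x : ℕ), CAder (pre ++ pad) t p x → ¬ accOK (pre ++ pad) x) := by
  obtain ⟨E, cd, hcd, hinj, h0, h1, h2, h3⟩ := exists_cd M
  have hE : 3 < E := by have := hcd (.inr (M.start, M.embed true)); omega
  refine ⟨wd E cd, by rw [wd_length]; omega, fun pad => ?_⟩
  have hw := good_wd E cd pad
  generalize wd E cd ++ pad = w at hw
  refine ⟨?_, ?_⟩
  · intro s hs
    set c := M.step^[s] (M.init w) with hc
    refine ⟨s, le_refl s, c.pos, cd (cell c c.pos), abs_pos_le _ s,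
      (CAder_iff hcd hinj hw h0 h1 h2 h3 s c.pos _).2 rfl, ?_⟩
    rw [acc_wd hcd hw]
    refine ⟨cell c c.pos, ?_, rfl⟩
    unfold cell
    rw [if_pos rfl]
    exact hs
  · intro s hs t p x hx hacc
    rw [CAder_iff hcd hinj hw h0 h1 h2 h3] at hx
    rw [acc_wd hcd hw] at hacc
    obtain ⟨y, hy, hyx⟩ := hacc
    have hy' := hinj (hyx.trans hx)
    rw [hy'] at hy
    unfold cell at hy
    split_ifs at hy with hp
    · have hy2 : M.answer (M.step^[t] (M.init w)).q = some true := hy
      rcases le_total s t with hst | hst
      · have := answer_mono _ hst hs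
        rw [hy2] at this
        cases this
      · have := answer_mono _ hst hy2
        rw [hs] at this
        cases this
    · exact hy

end Vale.Agent.P310
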