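import Vale.Agent.P312.Model

/-! # P310: transducers (definitions shared by Compose.lean and TransLS.lean) -/

namespace Vale.Agent.P310

open P312

/-- A transducer: a multitape machine with read-only input which emits bits. -/
structure Trans where
  M : SpaceTM Bool
  emit : M.Q → Option Bool

/-- On the input `w` the transducer halts after exactly `s` steps and has emitted `u`. -/
def Trans.Computes (F : Trans) (w : List Bool) (s : ℕ) (u : List Bool) : Prop :=
  (∀ j < s, F.M.answer ((F.M.step w)^[j] F.M.init).q = none) ∧
  F.M.answer ((F.M.step w)^[s] F.M.init).q ≠ none ∧
  (List.range s).filterMap (fun j => F.emit ((F.M.step w)^[j] F.M.init).q) = u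

end Vale.Agent.P310
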