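import Vale.Agent.P310.TM
import Vale.Agent.P310.Trans

/-!
# P310, T2: composition of a transducer and a multitape machine
-/

namespace Vale.Agent.P310

open P312

namespace Compose

variable (F : Trans) (A : TM Bool)

/-- Alphabet of the composed machine: a track for the input, one for the work tapes of the
transducer and one for the tapes of `A`. -/
abbrev Gam : Type := Option Bool × F.M.Γ × A.Γ

/-- States of the composed machine. -/
abbrev St : Type := (F.M.Q × Bool) ⊕ (Unit ⊕ A.Q)

/-- number of tapes minus one -/
abbrev nt : ℕ := F.M.k + (A.t + 1)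

/-- index of a work tape of the transducer -/
def wk (i : Fin F.M.k) : Fin (nt F A + 1) := (Fin.castAdd (A.t + 1) i).succ

/-- index of a tape of `A` -/
def at' (j : Fin (A.t + 1)) : Fin (nt F A + 1) := (Fin.natAdd F.M.k j).succ

/-- assemble a function on the tapes -/
def asm {β : Type} (a : β) (b : Fin F.M.k → β) (c : Fin (A.t + 1) → β) :
    Fin (nt F A + 1) → β :=
  Fin.cases a (fun i => Fin.addCases b c i)

@[simp] theorem asm_zero {β : Type} (a : β) (b : Fin F.M.k → β) (c : Fin (A.t + 1) → β) :
    asm F A a b c 0 = a := rfl

@[simp] theorem asm_wk {β : Type} (a : β) (b : Fin F.M.k → β) (c : Fin (A.t + 1) → β)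
    (i : Fin F.M.k) : asm F A a b c (wk F A i) = b i := by
  simp [asm, wk]

@[simp] theorem asm_at {β : Type} (a : β) (b : Fin F.M.k → β) (c : Fin (A.t + 1) → β)
    (j : Fin (A.t + 1)) : asm F A a b c (at' F A j) = c j := by
  simp [asm, at']

/-- the symbol seen by the transducer on its input tape -/
def inSym (s : Option Bool) (f : Bool) : InSym Bool :=
  match s with
  | some b => .sym b
  | none => if f then .leftEnd else .rightEnd

/-- move of the head on the input tape and new flag -/
def mvIn (s : Option Bool) (f : Bool) : Move → Move × Bool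
  | .left => if s = none ∧ f = true then (.stay, true) else (.left, true)
  | .stay => (.stay, f)
  | .right => if s = none ∧ f = false then (.stay, false) else (.right, false)

open Classical in
/-- The composed machine. -/
noncomputable abbrev B : TM Bool where
  t := nt F A
  Q := St F A
  Γ := Gam F A
  finQ := by
    have := F.M.finQ
    have := A.finQ
    infer_instance
  finΓ := by
    have := F.M.finΓ
    have := A.finΓ
    infer_instance
  embed := fun b => (some b, F.M.blank, A.blank)
  blank := (none, F.M.blank, A.blank)
  embed_inj := fun a b h => by simpa using h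
  embed_ne_blank := fun a h => by simp at h
  start := .inl (F.M.start, false)
  trans := fun q g =>
    match q with
    | .inl (q, f) =>
      match F.M.answer q with
      | some _ => (.inr (.inl ()), asm F A (g 0, .stay) (fun i => (g (wk F A i), .stay))
          (fun j => (g (at' F A j), if j = 0 then .left else .stay)))
      | none =>
        let r := F.M.trans q (inSym (g 0).1 f) (fun i => (g (wk F A i)).2.1)
        (.inl (r.1, (mvIn (g 0).1 f r.2.1).2),
          asm F A (g 0, (mvIn (g 0).1 f r.2.1).1)
            (fun i => (((g (wk F A i)).1, (r.2.2 i).1, (g (wk F A i)).2.2), (r.2.2 i).2))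
            (fun j => match F.emit q with
              | some b => if j = 0 then
                  (((g (at' F A j)).1, (g (at' F A j)).2.1, A.embed b), .right)
                  else (g (at' F A j), .stay)
              | none => (g (at' F A j), .stay)))
    | .inr (.inl _) =>
      if (g (at' F A 0)).2.2 = A.blank then
        (.inr (.inr A.start), asm F A (g 0, .stay) (fun i => (g (wk F A i), .stay))
          (fun j => (g (at' F A j), if j = 0 then .right else .stay)))
      else
        (.inr (.inl ()), asm F A (g 0, .stay) (fun i => (g (wk F A i), .stay))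
          (fun j => (g (at' F A j), if j = 0 then .left else .stay)))
    | .inr (.inr q) =>
      let r := A.trans q (fun j => (g (at' F A j)).2.2)
      (.inr (.inr r.1), asm F A (g 0, .stay) (fun i => (g (wk F A i), .stay))
        (fun j => (((g (at' F A j)).1, (g (at' F A j)).2.1, (r.2 j).1), (r.2 j).2)))
  answer := fun q =>
    match q with
    | .inl _ => none
    | .inr (.inl _) => none
    | .inr (.inr q) => A.answer q

/-! ### The input tape -/

/-- input track -/
def pI (g : (B F A).Γ) : Option Bool := Prod.fst g

/-- work track -/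
def pW (g : (B F A).Γ) : F.M.Γ := Prod.fst (Prod.snd g)

/-- track of `A` -/
def pA (g : (B F A).Γ) : A.Γ := Prod.snd (Prod.snd g)

theorem init_fst (w : List Bool) (h : ℕ) :
    pI F A (((B F A).init w).tape 0 ((h : ℤ) - 1)) = if h = 0 then none else w[h - 1]? := by
  rcases h with _ | n
  · simp only [TM.init]
    rw [dif_neg]
    · rfl
    · rintro ⟨_, h2, _⟩
      simp at h2
  · have e : ((n + 1 : ℕ) : ℤ) - 1 = (n : ℤ) := by push_cast; ring
    rw [e]
    simp only [TM.init, Nat.succ_ne_zero, if_false, Nat.add_sub_cancel]
    by_cases hn : n < w.length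
    · rw [dif_pos ⟨trivial, by positivity, by simpa using hn⟩]
      simp only [pI, Int.toNat_natCast]
      rw [List.getElem?_eq_getElem hn]
    · rw [dif_neg]
      · rw [List.getElem?_eq_none (not_lt.1 hn)]
        rfl
      · rintro ⟨_, _, h2⟩
        rw [Int.toNat_natCast] at h2
        exact hn h2

theorem inSym_eq (w : List Bool) {h : ℕ} {f : Bool} (hf0 : h = 0 → f = true)
    (hf1 : h = w.length + 1 → f = false) (hle : h ≤ w.length + 1) :
    inSym (if h = 0 then none else w[h - 1]?) f = inputAt w h := by
  rcases h with _ | n
  · rw [hf0 rfl]; simp [inSym, inputAt]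
  · simp only [inputAt, Nat.succ_ne_zero, if_false, Nat.add_sub_cancel]
    by_cases hn : n < w.length
    · simp [hn, inSym]
    · have : n = w.length := by omega
      subst this
      rw [hf1 rfl]
      simp [inSym]

theorem mvIn_eq (w : List Bool) {h : ℕ} {f : Bool} (hf0 : h = 0 → f = true)
    (hf1 : h = w.length + 1 → f = false) (hle : h ≤ w.length + 1) (mv : Move) :
    ((h : ℤ) - 1 + ((mvIn (if h = 0 then none else w[h - 1]?) f mv).1).toInt
      = ((moveInput w.length h mv : ℕ) : ℤ) - 1) ∧
    (moveInput w.length h mv = 0 →
      (mvIn (if h = 0 then none else w[h - 1]?) f mv).2 = true) ∧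
    (moveInput w.length h mv = w.length + 1 →
      (mvIn (if h = 0 then none else w[h - 1]?) f mv).2 = false) ∧
    moveInput w.length h mv ≤ w.length + 1 := by
  rcases h with _ | n
  · have := hf0 rfl
    subst this
    cases mv <;> simp [mvIn, moveInput, Move.toInt]
  · simp only [Nat.succ_ne_zero, if_false, Nat.add_sub_cancel]
    by_cases hn : n < w.length
    · cases mv <;> simp [mvIn, moveInput, Move.toInt, hn] <;> omega
    · have : n = w.length := by omega
      subst this
      have := hf1 rfl
      subst this
      cases mv <;> simp [mvIn, moveInput, Move.toInt]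
      ring

/-! ### General step lemmas -/

theorem step_none {M : TM Bool} {c : M.Cfg} (h : M.answer c.q = none) :
    M.step c =
    { q := (M.trans c.q (fun i => c.tape i (c.pos i))).1
      pos := fun i => c.pos i + ((M.trans c.q (fun i => c.tape i (c.pos i))).2 i).2.toInt
      tape := fun i => Function.update (c.tape i) (c.pos i)
        ((M.trans c.q (fun i => c.tape i (c.pos i))).2 i).1 } := by
  simp only [TM.step, h]

theorem step_some {M : TM Bool} {c : M.Cfg} {a : Bool} (h : M.answer c.q = some a) :
    M.step c = c := by
  simp only [TM.step, h]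

theorem sstep_none {M : SpaceTM Bool} {w : List Bool} {c : M.Cfg} (h : M.answer c.q = none) :
    M.step w c =
    { q := (M.trans c.q (inputAt w c.inp) (fun i => c.tape i (c.pos i))).1
      inp := moveInput w.length c.inp
        (M.trans c.q (inputAt w c.inp) (fun i => c.tape i (c.pos i))).2.1
      pos := fun i => c.pos i +
        ((M.trans c.q (inputAt w c.inp) (fun i => c.tape i (c.pos i))).2.2 i).2.toInt
      tape := fun i => Function.update (c.tape i) (c.pos i)
        ((M.trans c.q (inputAt w c.inp) (fun i => c.tape i (c.pos i))).2.2 i).1 } := by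
  simp only [SpaceTM.step, h]

/-! ### Stage 1 -/

/-- The simulation relation of stage 1. -/
structure Rel (w v : List Bool) (f : Bool) (c : (B F A).Cfg) (d : F.M.Cfg) : Prop where
  q : c.q = .inl (d.q, f)
  hf0 : d.inp = 0 → f = true
  hf1 : d.inp = w.length + 1 → f = false
  hle : d.inp ≤ w.length + 1
  pos0 : c.pos 0 = (d.inp : ℤ) - 1
  tape0 : c.tape 0 = ((B F A).init w).tape 0
  wpos : ∀ i, c.pos (wk F A i) = d.pos i
  wtape : ∀ i x, pW F A (c.tape (wk F A i) x) = d.tape i x
  apos : ∀ j, c.pos (at' F A j) = if j = 0 then (v.length : ℤ) else 0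
  atape : ∀ j x, pA F A (c.tape (at' F A j) x) = (A.init v).tape j x

theorem rel_init (w : List Bool) : Rel F A w [] false ((B F A).init w) F.M.init where
  q := rfl
  hf0 := by simp [SpaceTM.init]
  hf1 := by simp
  hle := by simp [SpaceTM.init]
  pos0 := by simp [TM.init, SpaceTM.init]
  tape0 := rfl
  wpos := fun i => rfl
  wtape := fun i x => by
    simp only [TM.init, SpaceTM.init]
    rw [dif_neg]
    · rfl
    · rintro ⟨h, _⟩
      exact absurd h (Fin.succ_ne_zero _)
  apos := fun j => by simp [TM.init]
  atape := fun j x => by
    simp only [TM.init]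
    rw [dif_neg, dif_neg]
    · rfl
    · rintro ⟨_, _, h⟩
      simp at h
    · rintro ⟨h, _⟩
      exact absurd h (Fin.succ_ne_zero _)

/-- appending a letter to the input of `A` -/
theorem init_append (v : List Bool) (b : Bool) (j : Fin (A.t + 1)) :
    (A.init (v ++ [b])).tape j = if j = 0 then
      Function.update ((A.init v).tape j) (v.length : ℤ) (A.embed b) else (A.init v).tape j := by
  split_ifs with hj
  · subst hj
    funext x
    by_cases hx : x = (v.length : ℤ)
    · subst hx
      rw [Function.update_self]
      simp only [TM.init]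
      rw [dif_pos ⟨trivial, by positivity, by simp⟩]
      simp
    · rw [Function.update_of_ne hx]
      simp only [TM.init]
      by_cases h1 : 0 ≤ x ∧ x.toNat < v.length
      · have h2 : x.toNat < (v ++ [b]).length := by
          rw [List.length_append]; have := h1.2; omega
        rw [dif_pos ⟨trivial, h1.1, h2⟩, dif_pos ⟨trivial, h1.1, h1.2⟩]
        congr 1
        exact List.getElem_append_left h1.2
      · rw [dif_neg, dif_neg]
        · rintro ⟨_, h2, h3⟩; exact h1 ⟨h2, h3⟩
        · rintro ⟨_, h2, h3⟩
          simp only [List.length_append, List.length_singleton] at h3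
          apply h1
          refine ⟨h2, ?_⟩
          have : x.toNat ≠ v.length := fun h => hx (by omega)
          omega
  · funext x
    simp only [TM.init]
    rw [dif_neg, dif_neg]
    · rintro ⟨h, _⟩; exact hj h
    · rintro ⟨h, _⟩; exact hj h

theorem rel_step {w v : List Bool} {f : Bool} {c : (B F A).Cfg} {d : F.M.Cfg}
    (h : Rel F A w v f c d) (hq : F.M.answer d.q = none) :
    ∃ f', Rel F A w (v ++ (F.emit d.q).toList) f' ((B F A).step c) (F.M.step w d) := by
  have hBq : (B F A).answer c.q = none := by rw [h.q]
  -- the scanned symbol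
  have hI : pI F A (c.tape 0 (c.pos 0)) = if d.inp = 0 then none else w[d.inp - 1]? := by
    rw [h.tape0, h.pos0, init_fst]
  have hsym : inSym (pI F A (c.tape 0 (c.pos 0))) f = inputAt w d.inp := by
    rw [hI]; exact inSym_eq w h.hf0 h.hf1 h.hle
  have hW : (fun i => pW F A (c.tape (wk F A i) (c.pos (wk F A i)))) =
      fun i => d.tape i (d.pos i) := by
    funext i; rw [h.wpos, h.wtape]
  obtain ⟨r, hr⟩ : ∃ r, r = F.M.trans d.q (inputAt w d.inp) (fun i => d.tape i (d.pos i)) :=
    ⟨_, rfl⟩
  have htr : (B F A).trans c.q (fun i => c.tape i (c.pos i)) =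
      (.inl (r.1, (mvIn (pI F A (c.tape 0 (c.pos 0))) f r.2.1).2),
          asm F A (c.tape 0 (c.pos 0), (mvIn (pI F A (c.tape 0 (c.pos 0))) f r.2.1).1)
            (fun i => ((pI F A (c.tape (wk F A i) (c.pos (wk F A i))), (r.2.2 i).1,
              pA F A (c.tape (wk F A i) (c.pos (wk F A i)))), (r.2.2 i).2))
            (fun j => match F.emit d.q with
              | some b => if j = 0 then
                  ((pI F A (c.tape (at' F A j) (c.pos (at' F A j))),
                    pW F A (c.tape (at' F A j) (c.pos (at' F A j))), A.embed b), .right)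
                  else (c.tape (at' F A j) (c.pos (at' F A j)), .stay)
              | none => (c.tape (at' F A j) (c.pos (at' F A j)), .stay))) := by
    rw [hr, ← hW, ← hsym, h.q]
    simp only [B, hq]
    first | done | rfl
  obtain ⟨m1, m2, m3, m4⟩ := mvIn_eq w h.hf0 h.hf1 h.hle r.2.1
  rw [← hI] at m1 m2 m3
  refine ⟨(mvIn (pI F A (c.tape 0 (c.pos 0))) f r.2.1).2, ?_⟩
  rw [step_none hBq, sstep_none hq, htr, ← hr]
  refine ⟨rfl, m2, m3, m4, ?_, ?_, ?_, ?_, ?_, ?_⟩
  · dsimp only
    rw [h.pos0] at m1 ⊢
    rw [asm_zero]
    exact m1
  · dsimp only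
    rw [asm_zero, Function.update_eq_self, h.tape0]
  · intro i
    dsimp only
    rw [asm_wk, h.wpos]
  · intro i x
    dsimp only
    rw [asm_wk, h.wpos]
    by_cases hx : x = d.pos i
    · subst hx
      rw [Function.update_self, Function.update_self]
      rfl
    · rw [Function.update_of_ne hx, Function.update_of_ne hx, h.wtape]
  · intro j
    dsimp only
    rw [asm_at, h.apos]
    rcases hem : F.emit d.q with _ | b
    · simp [Move.toInt]
    · by_cases hj : j = 0
      · simp [hj, Move.toInt]
      · simp [hj, Move.toInt]
  · intro j x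
    dsimp only
    rw [asm_at]
    rcases hem : F.emit d.q with _ | b
    · simp only [Option.toList_none, List.append_nil]
      rw [Function.update_eq_self, h.atape]
    · simp only [Option.toList_some]
      rw [init_append, h.apos]
      by_cases hj : j = 0
      · subst hj
        simp only [if_true]
        by_cases hx : x = (v.length : ℤ)
        · subst hx
          rw [Function.update_self, Function.update_self]
          rfl
        · rw [Function.update_of_ne hx, Function.update_of_ne hx, h.atape]
      · simp only [hj, if_false]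
        rw [Function.update_eq_self_iff.2, h.atape]
        rfl

theorem rel_iter (w : List Bool) (s : ℕ)
    (h : ∀ j < s, F.M.answer ((F.M.step w)^[j] F.M.init).q = none) :
    ∃ f, Rel F A w
      ((List.range s).filterMap (fun j => F.emit ((F.M.step w)^[j] F.M.init).q)) f
      ((B F A).step^[s] ((B F A).init w)) ((F.M.step w)^[s] F.M.init) := by
  induction s with
  | zero => exact ⟨false, rel_init F A w⟩
  | succ n ih =>
    obtain ⟨f, hf⟩ := ih (fun j hj => h j (by omega))
    obtain ⟨f', hf'⟩ := rel_step F A hf (h n (by omega))
    refine ⟨f', ?_⟩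
    rw [Function.iterate_succ_apply', Function.iterate_succ_apply', List.range_succ,
      List.filterMap_append]
    have e : List.filterMap (fun j => F.emit ((F.M.step w)^[j] F.M.init).q) [n]
        = (F.emit ((F.M.step w)^[n] F.M.init).q).toList := by
      rcases hem : F.emit ((F.M.step w)^[n] F.M.init).q with _ | b <;> simp [hem]
    rw [e]
    exact hf'

/-! ### Stage 2 -/

/-- The configurations of stage 2. -/
structure Rew (u : List Bool) (p : ℤ) (c : (B F A).Cfg) : Prop where
  q : c.q = .inr (.inl ())
  apos : ∀ j, c.pos (at' F A j) = if j = 0 then p else 0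
  atape : ∀ j x, pA F A (c.tape (at' F A j) x) = (A.init u).tape j x

theorem rew_start {w u : List Bool} {f : Bool} {c : (B F A).Cfg} {d : F.M.Cfg}
    (h : Rel F A w u f c d) (hq : F.M.answer d.q ≠ none) :
    Rew F A u (u.length - 1) ((B F A).step c) := by
  have hBq : (B F A).answer c.q = none := by rw [h.q]
  obtain ⟨a, ha⟩ := Option.ne_none_iff_exists'.1 hq
  have htr : (B F A).trans c.q (fun i => c.tape i (c.pos i)) =
      (.inr (.inl ()), asm F A (c.tape 0 (c.pos 0), .stay)
          (fun i => (c.tape (wk F A i) (c.pos (wk F A i)), .stay))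
          (fun j => (c.tape (at' F A j) (c.pos (at' F A j)), if j = 0 then .left else .stay))) := by
    rw [h.q]
    simp only [B, ha]
  rw [step_none hBq, htr]
  refine ⟨rfl, ?_, ?_⟩
  · intro j
    dsimp only
    rw [asm_at, h.apos]
    by_cases hj : j = 0
    · simp [hj, Move.toInt]; ring
    · simp [hj, Move.toInt]
  · intro j x
    dsimp only
    rw [asm_at, Function.update_eq_self, h.atape]

theorem rew_step {u : List Bool} {p : ℤ} {c : (B F A).Cfg} (h : Rew F A u p c) (hp0 : 0 ≤ p)
    (hp1 : p < u.length) : Rew F A u (p - 1) ((B F A).step c) := by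
  have hBq : (B F A).answer c.q = none := by rw [h.q]
  have hne : pA F A (c.tape (at' F A 0) (c.pos (at' F A 0))) ≠ A.blank := by
    rw [h.atape, h.apos, if_pos rfl]
    simp only [TM.init]
    rw [dif_pos ⟨trivial, hp0, by omega⟩]
    exact A.embed_ne_blank _
  have htr : (B F A).trans c.q (fun i => c.tape i (c.pos i)) =
      (.inr (.inl ()), asm F A (c.tape 0 (c.pos 0), .stay)
          (fun i => (c.tape (wk F A i) (c.pos (wk F A i)), .stay))
          (fun j => (c.tape (at' F A j) (c.pos (at' F A j)), if j = 0 then .left else .stay))) := by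
    rw [h.q]
    simp only [B]
    rw [if_neg]
    exact hne
  rw [step_none hBq, htr]
  refine ⟨rfl, ?_, ?_⟩
  · intro j
    dsimp only
    rw [asm_at, h.apos]
    by_cases hj : j = 0
    · simp [hj, Move.toInt]; ring
    · simp [hj, Move.toInt]
  · intro j x
    dsimp only
    rw [asm_at, Function.update_eq_self, h.atape]

/-! ### Stage 3 -/

/-- The simulation relation of stage 3. -/
structure Run (d : A.Cfg) (c : (B F A).Cfg) : Prop where
  q : c.q = .inr (.inr d.q)
  apos : ∀ j, c.pos (at' F A j) = d.pos j
  atape : ∀ j x, pA F A (c.tape (at' F A j) x) = d.tape j x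

theorem rew_last {u : List Bool} {c : (B F A).Cfg} (h : Rew F A u (-1) c) :
    Run F A (A.init u) ((B F A).step c) := by
  have hBq : (B F A).answer c.q = none := by rw [h.q]
  have hne : pA F A (c.tape (at' F A 0) (c.pos (at' F A 0))) = A.blank := by
    rw [h.atape, h.apos, if_pos rfl]
    simp only [TM.init]
    rw [dif_neg]
    rintro ⟨_, h1, _⟩
    norm_num at h1
  have htr : (B F A).trans c.q (fun i => c.tape i (c.pos i)) =
      (.inr (.inr A.start), asm F A (c.tape 0 (c.pos 0), .stay)
          (fun i => (c.tape (wk F A i) (c.pos (wk F A i)), .stay))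
          (fun j => (c.tape (at' F A j) (c.pos (at' F A j)),
            if j = 0 then .right else .stay))) := by
    rw [h.q]
    simp only [B]
    rw [if_pos]
    exact hne
  rw [step_none hBq, htr]
  refine ⟨rfl, ?_, ?_⟩
  · intro j
    dsimp only
    rw [asm_at, h.apos]
    by_cases hj : j = 0
    · simp [hj, Move.toInt, TM.init]
    · simp [hj, Move.toInt, TM.init]
  · intro j x
    dsimp only
    rw [asm_at, Function.update_eq_self, h.atape]

theorem run_step {d : A.Cfg} {c : (B F A).Cfg} (h : Run F A d c) :
    Run F A (A.step d) ((B F A).step c) := by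
  have hBq : (B F A).answer c.q = A.answer d.q := by rw [h.q]
  rcases ha : A.answer d.q with _ | a
  · rw [ha] at hBq
    have hT : (fun j => pA F A (c.tape (at' F A j) (c.pos (at' F A j)))) =
        fun j => d.tape j (d.pos j) := by
      funext j; rw [h.apos, h.atape]
    obtain ⟨r, hr⟩ : ∃ r, r = A.trans d.q (fun j => d.tape j (d.pos j)) := ⟨_, rfl⟩
    have htr : (B F A).trans c.q (fun i => c.tape i (c.pos i)) =
        (.inr (.inr r.1), asm F A (c.tape 0 (c.pos 0), .stay)
          (fun i => (c.tape (wk F A i) (c.pos (wk F A i)), .stay))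
          (fun j => ((pI F A (c.tape (at' F A j) (c.pos (at' F A j))),
            pW F A (c.tape (at' F A j) (c.pos (at' F A j))), (r.2 j).1), (r.2 j).2))) := by
      rw [hr, ← hT, h.q]
      simp only [B]
      rfl
    rw [step_none hBq, step_none ha, htr, ← hr]
    refine ⟨rfl, ?_, ?_⟩
    · intro j
      dsimp only
      rw [asm_at, h.apos]
    · intro j x
      dsimp only
      rw [asm_at, h.apos]
      by_cases hx : x = d.pos j
      · subst hx
        rw [Function.update_self, Function.update_self]
        rfl
      · rw [Function.update_of_ne hx, Function.update_of_ne hx, h.atape]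
  · rw [ha] at hBq
    rw [step_some hBq, step_some ha]
    exact h

end Compose

open Compose in
theorem exists_compose (F : Trans) (A : TM Bool) : ∃ (B : TM Bool) (C : ℕ), ∀ w u s₁ s₂ a,
    F.Computes w s₁ u → A.HaltsWith u s₂ a →
      ∃ s ≤ C * (s₁ + s₂ + u.length + w.length + 1), B.HaltsWith w s a := by
  refine ⟨B F A, 2, fun w u s₁ s₂ a hF hA => ?_⟩
  obtain ⟨h1, h2, h3⟩ := hF
  obtain ⟨f, hf⟩ := rel_iter F A w s₁ h1
  rw [h3] at hf
  have hrew := rew_start F A hf h2
  rw [← Function.iterate_succ_apply' (B F A).step] at hrew
  -- rewinding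
  have hrw : ∀ i ≤ u.length, Rew F A u ((u.length : ℤ) - 1 - i)
      ((B F A).step^[s₁ + 1 + i] ((B F A).init w)) := by
    intro i hi
    induction i with
    | zero => simpa using hrew
    | succ n ih =>
      have h4 := rew_step F A (ih (by omega)) (by omega) (by omega)
      rw [← Function.iterate_succ_apply' (B F A).step] at h4
      have e : (u.length : ℤ) - 1 - (n + 1 : ℕ) = (u.length : ℤ) - 1 - n - 1 := by
        push_cast; ring
      rw [e]
      exact h4
  have hlast := hrw u.length le_rfl
  have e : (u.length : ℤ) - 1 - u.length = -1 := by ring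
  rw [e] at hlast
  have hrun0 := rew_last F A hlast
  rw [← Function.iterate_succ_apply' (B F A).step] at hrun0
  have hrun : ∀ i, Run F A (A.step^[i] (A.init u))
      ((B F A).step^[s₁ + 1 + u.length + 1 + i] ((B F A).init w)) := by
    intro i
    induction i with
    | zero => exact hrun0
    | succ n ih =>
      have h4 := run_step F A ih
      rw [← Function.iterate_succ_apply' A.step, ← Function.iterate_succ_apply' (B F A).step] at h4
      exact h4
  refine ⟨s₁ + 1 + u.length + 1 + s₂, by omega, ?_⟩
  have h5 := (hrun s₂).q
  show (B F A).answer _ = some a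
  rw [h5]
  exact hA

end Vale.Agent.P310
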