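import Vale.Agent.P312.Model
import Vale.Agent.P310.WLDef

/-!
# P310: multitape Turing machines, the encoding of pairs of graphs
-/

namespace Vale.Agent.P310

open P312 (Move)

/-- A deterministic multitape Turing machine over the input alphabet `α`: `t + 1` two-way infinite
tapes (tape `0` initially contains the input and may be rewritten), a finite set of states `Q`, a
finite tape alphabet `Γ` containing the input alphabet and a further blank symbol, a start state, a
total transition function (depending on the state and on the scanned symbols, and yielding the new
state and for every tape the written symbol and the head move), and the information which states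
are halting and with which answer (`none`: not halting, `some true`: accept, `some false`:
reject). -/
structure TM (α : Type) where
  t : ℕ
  Q : Type
  Γ : Type
  finQ : Finite Q
  finΓ : Finite Γ
  embed : α → Γ
  blank : Γ
  embed_inj : Function.Injective embed
  embed_ne_blank : ∀ a, embed a ≠ blank
  start : Q
  trans : Q → (Fin (t + 1) → Γ) → Q × (Fin (t + 1) → Γ × Move)
  answer : Q → Option Bool

namespace TM

variable {α : Type}

/-- A configuration: state, head positions, tape contents. -/
structure Cfg (M : TM α) where
  q : M.Q
  pos : Fin (M.t + 1) → ℤ
  tape : Fin (M.t + 1) → ℤ → M.Γ

/-- The initial configuration on the input `w`: the input is written on the cells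
`0, …, |w| - 1` of tape `0`, everything else is blank, all heads scan cell `0`. -/
def init (M : TM α) (w : List α) : M.Cfg where
  q := M.start
  pos := fun _ => 0
  tape := fun i x => if h : i = 0 ∧ 0 ≤ x ∧ x.toNat < w.length then M.embed (w[x.toNat]'h.2.2)
    else M.blank

/-- One step of the machine; halting configurations do not change. -/
def step (M : TM α) (c : M.Cfg) : M.Cfg :=
  match M.answer c.q with
  | some _ => c
  | none =>
    { q := (M.trans c.q (fun i => c.tape i (c.pos i))).1
      pos := fun i => c.pos i + ((M.trans c.q (fun i => c.tape i (c.pos i))).2 i).2.toInt
      tape := fun i => Function.update (c.tape i) (c.pos i)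
        ((M.trans c.q (fun i => c.tape i (c.pos i))).2 i).1 }

/-- On the input `w` the machine halts within `s` steps with the answer `a`. -/
def HaltsWith (M : TM α) (w : List α) (s : ℕ) (a : Bool) : Prop :=
  M.answer (M.step^[s] (M.init w)).q = some a

/-- The running time on the input `w`: the number of steps until the machine halts. -/
noncomputable def time (M : TM α) (w : List α) : ℕ :=
  sInf {s | ∃ a, M.HaltsWith w s a}

end TM

/-- The adjacency matrix of a graph on `n` vertices, row by row. -/
noncomputable def encGraph {n : ℕ} (G : SimpleGraph (Fin n)) : List Bool :=
  open Classical in
  (List.finRange n).flatMap (fun i => (List.finRange n).map (fun j => decide (G.Adj i j)))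

/-- The encoding of a pair of graphs: the two adjacency matrices. -/
noncomputable def encPair {n : ℕ} (G H : SimpleGraph (Fin n)) : List Bool :=
  encGraph G ++ encGraph H

/-- `M` decides `k`-WL equivalence (of pairs of graphs with the same number of vertices). -/
def TM.DecidesWL (M : TM Bool) (k : ℕ) : Prop :=
  ∀ (n : ℕ) (G H : SimpleGraph (Fin n)),
    (WLEquiv k G H → ∃ s, M.HaltsWith (encPair G H) s true) ∧
    (¬ WLEquiv k G H → ∃ s, M.HaltsWith (encPair G H) s false)

/-- The worst-case running time over pairs of graphs with `n` vertices each. -/
noncomputable def TM.worstTime (M : TM Bool) (n : ℕ) : ℕ :=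
  ⨆ p : SimpleGraph (Fin n) × SimpleGraph (Fin n), M.time (encPair p.1 p.2)

end Vale.Agent.P310
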