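import Vale.Agent.P312.Model
import Vale.Agent.P310.TM

/-!
# P310: simulation of a multitape machine by a one-tape machine, quadratic overhead

The tape of the one-tape machine has `t + 1` tracks; on every track the position of the head is
marked. One step of the multitape machine is simulated by one sweep to the right (which collects
the scanned symbols, and carries out the pending head moves to the right) and one sweep to the
left (which writes the new symbols and carries out the head moves to the left).
-/

namespace Vale.Agent.P310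

open P312 (Move OneTapeTM)

namespace MultiOne

/-- Marks on a track: no head, the head, the head is on the next cell to the right. -/
inductive Mk where
  | N
  | H
  | P

/-- Track states of the sweep to the right. -/
inductive RS (Γ : Type) where
  | search
  | carry
  | found (g : Γ)

/-- Track states of the sweep to the left. -/
inductive LT where
  | todo
  | carry
  | done

/-- States of the simulating machine. -/
inductive St (M : TM Bool) where
  | start
  | coll (q : M.Q) (σ : Fin (M.t + 1) → RS M.Γ)
  | upd (q : M.Q) (acts : Fin (M.t + 1) → M.Γ × Move) (τ : Fin (M.t + 1) → LT)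

instance : Finite Mk :=
  Finite.of_injective (β := Fin 3) (fun m => match m with | .N => 0 | .H => 1 | .P => 2)
    (by rintro (_ | _ | _) (_ | _ | _) h <;> simp_all)

instance : Finite LT :=
  Finite.of_injective (β := Fin 3) (fun m => match m with | .todo => 0 | .carry => 1 | .done => 2)
    (by rintro (_ | _ | _) (_ | _ | _) h <;> simp_all)

instance : Finite Move :=
  Finite.of_injective (β := Fin 3) (fun m => match m with | .left => 0 | .stay => 1 | .right => 2)
    (by rintro (_ | _ | _) (_ | _ | _) h <;> simp_all)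

instance {Γ : Type} [Finite Γ] : Finite (RS Γ) :=
  Finite.of_injective (β := Option (Option Γ))
    (fun m => match m with | .search => none | .carry => some none | .found g => some (some g))
    (by rintro (_ | _ | _) (_ | _ | _) h <;> simp_all)

instance {M : TM Bool} : Finite (St M) := by
  have := M.finQ
  have := M.finΓ
  exact Finite.of_injective
    (β := Option ((M.Q × (Fin (M.t + 1) → RS M.Γ)) ⊕
      (M.Q × (Fin (M.t + 1) → M.Γ × Move) × (Fin (M.t + 1) → LT))))
    (fun m => match m with
      | .start => none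
      | .coll q σ => some (Sum.inl (q, σ))
      | .upd q a τ => some (Sum.inr (q, a, τ)))
    (by rintro (_ | _ | _) (_ | _ | _) h <;> simp_all)

def rstep {Γ : Type} : RS Γ → Γ × Mk → RS Γ × (Γ × Mk)
  | .search, (g, .N) => (.search, (g, .N))
  | .search, (g, .H) => (.found g, (g, .H))
  | .search, (g, .P) => (.carry, (g, .N))
  | .carry, (g, _) => (.found g, (g, .H))
  | .found g', c => (.found g', c)

def lstep {Γ : Type} (act : Γ × Move) : LT → Γ × Mk → LT × (Γ × Mk)
  | .todo, (g, .H) => match act.2 with
    | .stay => (.done, (act.1, .H))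
    | .right => (.done, (act.1, .P))
    | .left => (.carry, (act.1, .N))
  | .todo, (g, .N) => (.todo, (g, .N))
  | .todo, (g, .P) => (.todo, (g, .P))
  | .carry, (g, _) => (.done, (g, .H))
  | .done, c => (.done, c)

/-- The symbol found. -/
def RS.get {Γ : Type} (d : Γ) : RS Γ → Γ
  | .found g => g
  | _ => d

open Classical in
/-- The transition function of the simulating machine. -/
noncomputable def tr (M : TM Bool) (q : St M) (c : Fin (M.t + 1) → M.Γ × Mk) :
    St M × (Fin (M.t + 1) → M.Γ × Mk) × Move :=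
  match q with
  | .start => (.coll M.start (fun _ => .search), (fun i => ((c i).1, Mk.H)), .stay)
  | .coll q σ =>
    if ∀ i, ∃ g, σ i = .found g then
      (.upd (M.trans q (fun i => (σ i).get M.blank)).1
        (M.trans q (fun i => (σ i).get M.blank)).2 (fun _ => .todo), c, .stay)
    else
      (.coll q (fun i => (rstep (σ i) (c i)).1), (fun i => (rstep (σ i) (c i)).2), .right)
  | .upd q acts τ =>
    if ∀ i, τ i = .done then
      (.coll q (fun _ => .search), c, .stay)
    else
      (.upd q acts (fun i => (lstep (acts i) (τ i) (c i)).1),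
        (fun i => (lstep (acts i) (τ i) (c i)).2), .left)

/-- The answers of the simulating machine. -/
def ans {M : TM Bool} : St M → Option Bool
  | .start => none
  | .coll q _ => M.answer q
  | .upd _ _ _ => none

theorem tr_coll_pos {M : TM Bool} {q : M.Q} {σ : Fin (M.t + 1) → RS M.Γ}
    {c : Fin (M.t + 1) → M.Γ × Mk} (h : ∀ i, ∃ g, σ i = .found g) :
    tr M (.coll q σ) c = (.upd (M.trans q (fun i => (σ i).get M.blank)).1
        (M.trans q (fun i => (σ i).get M.blank)).2 (fun _ => .todo), c, .stay) := if_pos h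

theorem tr_coll_neg {M : TM Bool} {q : M.Q} {σ : Fin (M.t + 1) → RS M.Γ}
    {c : Fin (M.t + 1) → M.Γ × Mk} (h : ¬ ∀ i, ∃ g, σ i = .found g) :
    tr M (.coll q σ) c = (.coll q (fun i => (rstep (σ i) (c i)).1),
      (fun i => (rstep (σ i) (c i)).2), .right) := if_neg h

theorem tr_upd_pos {M : TM Bool} {q : M.Q} {acts : Fin (M.t + 1) → M.Γ × Move}
    {τ : Fin (M.t + 1) → LT} {c : Fin (M.t + 1) → M.Γ × Mk} (h : ∀ i, τ i = .done) :
    tr M (.upd q acts τ) c = (.coll q (fun _ => .search), c, .stay) := if_pos h

theorem tr_upd_neg {M : TM Bool} {q : M.Q} {acts : Fin (M.t + 1) → M.Γ × Move}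
    {τ : Fin (M.t + 1) → LT} {c : Fin (M.t + 1) → M.Γ × Mk} (h : ¬ ∀ i, τ i = .done) :
    tr M (.upd q acts τ) c = (.upd q acts (fun i => (lstep (acts i) (τ i) (c i)).1),
        (fun i => (lstep (acts i) (τ i) (c i)).2), .left) := if_neg h

/-- The simulating machine. -/
noncomputable def sim (M : TM Bool) : OneTapeTM Bool where
  Q := St M
  Γ := Fin (M.t + 1) → M.Γ × Mk
  finQ := inferInstance
  finΓ := by
    have := M.finΓ
    infer_instance
  embed := fun a i => (if i = 0 then M.embed a else M.blank, Mk.N)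
  blank := fun _ => (M.blank, Mk.N)
  embed_inj := by
    intro a b h
    have := congrFun h 0
    simpa using M.embed_inj (by simpa using this)
  embed_ne_blank := by
    intro a h
    have := congrFun h 0
    exact M.embed_ne_blank a (by simpa using this)
  start := .start
  trans := tr M
  answer := ans

/-- Configurations of the simulating machine. -/
def mk {M : TM Bool} (q : St M) (z : ℤ) (T : ℤ → Fin (M.t + 1) → M.Γ × Mk) : (sim M).Cfg where
  q := q
  pos := z
  tape := T

theorem sim_step {M : TM Bool} {q : St M} {z : ℤ} {T : ℤ → Fin (M.t + 1) → M.Γ × Mk}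
    {q' : St M} {c : Fin (M.t + 1) → M.Γ × Mk} {mv : Move}
    (hans : ans q = none) (htr : tr M q (T z) = (q', c, mv)) :
    (sim M).step (mk q z T) = mk q' (z + mv.toInt) (Function.update T z c) := by
  have h1 : (sim M).answer (mk q z T).q = none := hans
  have h2 : (sim M).trans (mk q z T).q ((mk q z T).tape (mk q z T).pos) = (q', c, mv) := htr
  unfold OneTapeTM.step
  rw [h1]
  simp only [h2]
  rfl

/-! ### Track lemmas -/

section Track

variable {Γ : Type}

/-- Track state of the right sweep when the head is at `z`; `y` is the cell of the mark `k`. -/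
def rσ (pend : Bool) (y : ℤ) (f : ℤ → Γ) (z : ℤ) : RS Γ :=
  if z ≤ y then .search
  else if pend then (if z = y + 1 then .carry else .found (f (y + 1)))
  else .found (f y)

def rμ (pend : Bool) (y z x : ℤ) : Mk :=
  if z ≤ y then (if x = y then (if pend then Mk.P else Mk.H) else Mk.N)
  else if pend then (if z = y + 1 then Mk.N else (if x = y + 1 then Mk.H else Mk.N))
  else (if x = y then Mk.H else Mk.N)

theorem rstep_spec (pend : Bool) (y : ℤ) (f : ℤ → Γ) (z : ℤ) :
    rstep (rσ pend y f z) (f z, rμ pend y z z)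
      = (rσ pend y f (z + 1), (f z, rμ pend y (z + 1) z)) := by
  unfold rσ rμ
  cases pend
  · rcases lt_trichotomy z y with h | h | h
    · have h1 : z ≤ y := h.le
      have h2 : z + 1 ≤ y := by omega
      have h3 : z ≠ y := h.ne
      simp [h1, h2, h3, rstep]
    · subst h
      simp [rstep]
    · have h1 : ¬ z ≤ y := by omega
      have h2 : ¬ z + 1 ≤ y := by omega
      simp [h1, h2, rstep]
  · rcases lt_trichotomy z y with h | h | h
    · have h1 : z ≤ y := h.le
      have h2 : z + 1 ≤ y := by omega
      have h3 : z ≠ y := h.ne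
      simp [h1, h2, h3, rstep]
    · subst h
      simp [rstep]
    · have h1 : ¬ z ≤ y := by omega
      have h2 : ¬ z + 1 ≤ y := by omega
      rcases eq_or_ne z (y + 1) with h4 | h4
      · subst h4
        simp [h1, h2, rstep]
      · have h5 : ¬ z + 1 = y + 1 := by omega
        simp [h1, h2, h4, h5, rstep]

theorem rμ_ne (pend : Bool) (y z x : ℤ) (hx : x ≠ z) : rμ pend y (z + 1) x = rμ pend y z x := by
  unfold rμ
  cases pend
  · rcases lt_trichotomy z y with h | h | h
    · have h1 : z ≤ y := h.le
      have h2 : z + 1 ≤ y := by omega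
      simp [h1, h2]
    · subst h
      simp [hx]
    · have h1 : ¬ z ≤ y := by omega
      have h2 : ¬ z + 1 ≤ y := by omega
      simp [h1, h2]
  · rcases lt_trichotomy z y with h | h | h
    · have h1 : z ≤ y := h.le
      have h2 : z + 1 ≤ y := by omega
      simp [h1, h2]
    · subst h
      simp [hx]
    · have h1 : ¬ z ≤ y := by omega
      have h2 : ¬ z + 1 ≤ y := by omega
      rcases eq_or_ne z (y + 1) with h4 | h4
      · subst h4
        simp [h1, h2, hx]
      · have h5 : ¬ z + 1 = y + 1 := by omega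
        simp [h1, h2, h4, h5]

/-- Track state of the left sweep when the head is at `z`; `h` is the simulated head position. -/
def lτ (mv : Move) (h z : ℤ) : LT :=
  if h ≤ z then .todo
  else match mv with
    | .left => if z = h - 1 then .carry else .done
    | _ => .done

def lcell (f : ℤ → Γ) (act : Γ × Move) (h z x : ℤ) : Γ × Mk :=
  if h ≤ z then (f x, if x = h then Mk.H else Mk.N)
  else (if x = h then act.1 else f x,
    match act.2 with
    | .stay => if x = h then Mk.H else Mk.N
    | .right => if x = h then Mk.P else Mk.N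
    | .left => if z = h - 1 then Mk.N else (if x = h - 1 then Mk.H else Mk.N))

theorem lstep_spec (f : ℤ → Γ) (act : Γ × Move) (h z : ℤ) :
    lstep act (lτ act.2 h z) (lcell f act h z z)
      = (lτ act.2 h (z - 1), lcell f act h (z - 1) z) := by
  unfold lτ lcell
  obtain ⟨g, mv⟩ := act
  rcases lt_trichotomy z h with h0 | h0 | h0
  · have h1 : ¬ h ≤ z := by omega
    have h2 : ¬ h ≤ z - 1 := by omega
    have h3 : z ≠ h := h0.ne
    cases mv
    · rcases eq_or_ne z (h - 1) with h4 | h4
      · subst h4
        simp [lstep]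
      · have h5 : ¬ z - 1 = h - 1 := by omega
        simp [h1, h2, h3, h4, h5, lstep]
    · simp [h1, h2, h3, lstep]
    · simp [h1, h2, h3, lstep]
  · subst h0
    have h2 : ¬ z ≤ z - 1 := by omega
    cases mv <;> simp [h2, lstep]
  · have h1 : h ≤ z := h0.le
    have h2 : h ≤ z - 1 := by omega
    have h3 : z ≠ h := h0.ne'
    simp [h1, h2, h3, lstep]

theorem lcell_ne (f : ℤ → Γ) (act : Γ × Move) (h z x : ℤ) (hx : x ≠ z) :
    lcell f act h (z - 1) x = lcell f act h z x := by
  unfold lcell
  obtain ⟨g, mv⟩ := act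
  rcases lt_trichotomy z h with h0 | h0 | h0
  · have h1 : ¬ h ≤ z := by omega
    have h2 : ¬ h ≤ z - 1 := by omega
    cases mv
    · rcases eq_or_ne z (h - 1) with h4 | h4
      · subst h4
        have h5 : ¬ (h - 1 - 1 = h - 1) := by omega
        simp [h1, h2, h5, hx]
      · have h5 : ¬ z - 1 = h - 1 := by omega
        simp [h1, h2, h4, h5]
    · simp [h1, h2]
    · simp [h1, h2]
  · subst h0
    have h2 : ¬ z ≤ z - 1 := by omega
    cases mv <;> simp [h2, hx]
  · have h1 : h ≤ z := h0.le
    have h2 : h ≤ z - 1 := by omega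
    simp [h1, h2]

end Track

/-! ### The sweeps -/

variable (M : TM Bool)

/-- The head position encoded by a mark. -/
def hp (pend : Bool) (y : ℤ) : ℤ := if pend then y + 1 else y

theorem rσ_found {Γ : Type} (pend : Bool) (y : ℤ) (f : ℤ → Γ) (z : ℤ) :
    (∃ g, rσ pend y f z = .found g) ↔ hp pend y < z := by
  unfold rσ hp
  cases pend
  · by_cases h : z ≤ y
    · simp [h]
    · simp [h]; omega
  · by_cases h : z ≤ y
    · simp [h]; omega
    · by_cases h2 : z = y + 1
      · simp [h2]
      · simp [h, h2]; omega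

theorem rσ_get {Γ : Type} (d : Γ) (pend : Bool) (y : ℤ) (f : ℤ → Γ) (z : ℤ) (h : hp pend y < z) :
    (rσ pend y f z).get d = f (hp pend y) := by
  unfold rσ
  unfold hp at *
  cases pend
  · have h1 : ¬ z ≤ y := by simpa using h
    simp [h1, RS.get]
  · have h1 : ¬ z ≤ y := by simp at h; omega
    have h2 : ¬ z = y + 1 := by simp at h; omega
    simp [h1, h2, RS.get]

theorem rμ_end {Γ : Type} (pend : Bool) (y z : ℤ) (f : ℤ → Γ) (act : Γ × Move) (x : ℤ)
    (h : hp pend y < z) : (f x, rμ pend y z x) = lcell f act (hp pend y) z x := by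
  unfold lcell rμ
  rw [if_pos h.le]
  cases pend
  · have h2 : ¬ z ≤ y := by simpa [hp] using h
    simp [h2, hp]
  · have h2 : ¬ z ≤ y := by simp [hp] at h; omega
    have h3 : ¬ z = y + 1 := by simp [hp] at h; omega
    simp [h2, h3, hp]

/-- Configuration during the sweep to the right. -/
noncomputable def cfgR (q : M.Q) (pend : Fin (M.t + 1) → Bool) (y : Fin (M.t + 1) → ℤ)
    (f : Fin (M.t + 1) → ℤ → M.Γ) (z : ℤ) : (sim M).Cfg :=
  mk (St.coll q (fun i => rσ (pend i) (y i) (f i) z)) z (fun x i => (f i x, rμ (pend i) (y i) z x))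

/-- Configuration during the sweep to the left. -/
noncomputable def cfgL (q : M.Q) (acts : Fin (M.t + 1) → M.Γ × Move) (h : Fin (M.t + 1) → ℤ)
    (f : Fin (M.t + 1) → ℤ → M.Γ) (z : ℤ) : (sim M).Cfg :=
  mk (St.upd q acts (fun i => lτ (acts i).2 (h i) z)) z (fun x i => lcell (f i) (acts i) (h i) z x)

variable {M}

theorem upd_eq {Γ : Type} (T T' : ℤ → Γ) (z : ℤ) (h : ∀ x, x ≠ z → T' x = T x) :
    Function.update T z (T' z) = T' := by
  funext x
  rcases eq_or_ne x z with hx | hx
  · subst hx; rw [Function.update_self]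
  · rw [Function.update_of_ne hx, h x hx]

theorem step_R {q : M.Q} {pend : Fin (M.t + 1) → Bool} {y : Fin (M.t + 1) → ℤ}
    {f : Fin (M.t + 1) → ℤ → M.Γ} {z : ℤ} (hq : M.answer q = none)
    (hz : ¬ ∀ i, hp (pend i) (y i) < z) :
    (sim M).step (cfgR M q pend y f z) = cfgR M q pend y f (z + 1) := by
  have hz' : ¬ ∀ i, ∃ g, rσ (pend i) (y i) (f i) z = .found g := by
    simpa only [rσ_found] using hz
  unfold cfgR
  rw [sim_step (q := St.coll q _) hq (tr_coll_neg hz')]
  simp only [rstep_spec]
  congr 1
  exact upd_eq (fun x i => (f i x, rμ (pend i) (y i) z x))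
    (fun x i => (f i x, rμ (pend i) (y i) (z + 1) x)) z
    (fun x hx => by funext i; simp only [rμ_ne _ _ _ _ hx])

theorem sweep_R {q : M.Q} {pend : Fin (M.t + 1) → Bool} {y : Fin (M.t + 1) → ℤ}
    {f : Fin (M.t + 1) → ℤ → M.Γ} (hq : M.answer q = none) (n : ℕ) :
    ∀ z : ℤ, (∀ i, hp (pend i) (y i) < z + n) →
      ∃ j ≤ n, (sim M).step^[j] (cfgR M q pend y f z) = cfgR M q pend y f (z + j) ∧
        ∀ i, hp (pend i) (y i) < z + j := by
  induction n with
  | zero => intro z hz; exact ⟨0, le_rfl, by simp, hz⟩
  | succ n ih =>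
    intro z hz
    by_cases h : ∀ i, hp (pend i) (y i) < z
    · exact ⟨0, by omega, by simp, by simpa using h⟩
    · obtain ⟨j, hj, h1, h2⟩ := ih (z + 1) (fun i => by have := hz i; push_cast at this; linarith)
      refine ⟨j + 1, by omega, ?_, fun i => by have := h2 i; push_cast; linarith⟩
      rw [Function.iterate_succ_apply, step_R hq h, h1]
      congr 1
      push_cast
      ring

theorem turn_R {q : M.Q} {pend : Fin (M.t + 1) → Bool} {y : Fin (M.t + 1) → ℤ}
    {f : Fin (M.t + 1) → ℤ → M.Γ} {z : ℤ} (hq : M.answer q = none)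
    (hz : ∀ i, hp (pend i) (y i) < z) :
    (sim M).step (cfgR M q pend y f z)
      = cfgL M (M.trans q (fun i => f i (hp (pend i) (y i)))).1
          (M.trans q (fun i => f i (hp (pend i) (y i)))).2
          (fun i => hp (pend i) (y i)) f z := by
  have hz' : ∀ i, ∃ g, rσ (pend i) (y i) (f i) z = .found g := by
    simpa only [rσ_found] using hz
  have hget : (fun i => (rσ (pend i) (y i) (f i) z).get M.blank)
      = (fun i => f i (hp (pend i) (y i))) := by
    funext i; exact rσ_get _ _ _ _ _ (hz i)
  unfold cfgR cfgL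
  rw [sim_step (q := St.coll q _) hq (tr_coll_pos hz'), hget, Function.update_eq_self]
  congr 1
  · congr 1
    funext i
    unfold lτ
    rw [if_pos (hz i).le]
  · simp [Move.toInt]
  · funext x i
    exact rμ_end _ _ _ _ _ _ (hz i)

theorem step_L {q : M.Q} {acts : Fin (M.t + 1) → M.Γ × Move} {h : Fin (M.t + 1) → ℤ}
    {f : Fin (M.t + 1) → ℤ → M.Γ} {z : ℤ} (hz : ¬ ∀ i, lτ (acts i).2 (h i) z = .done) :
    (sim M).step (cfgL M q acts h f z) = cfgL M q acts h f (z - 1) := by
  unfold cfgL
  rw [sim_step rfl (tr_upd_neg hz)]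
  simp only [lstep_spec]
  congr 1
  exact upd_eq (fun x i => lcell (f i) (acts i) (h i) z x)
    (fun x i => lcell (f i) (acts i) (h i) (z - 1) x) z
    (fun x hx => by funext i; exact lcell_ne _ _ _ _ _ hx)

theorem lτ_done {mv : Move} {h z : ℤ} (hz : z < h - 1) : lτ mv h z = .done := by
  unfold lτ
  rw [if_neg (by omega)]
  cases mv
  · simp; omega
  · rfl
  · rfl

theorem sweep_L {q : M.Q} {acts : Fin (M.t + 1) → M.Γ × Move} {h : Fin (M.t + 1) → ℤ}
    {f : Fin (M.t + 1) → ℤ → M.Γ} (n : ℕ) :
    ∀ z : ℤ, (∀ i, z - n < h i - 1) →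
      ∃ j ≤ n, (sim M).step^[j] (cfgL M q acts h f z) = cfgL M q acts h f (z - j) ∧
        ∀ i, lτ (acts i).2 (h i) (z - j) = .done := by
  induction n with
  | zero =>
    intro z hz
    exact ⟨0, le_rfl, by simp, fun i => lτ_done (hz i)⟩
  | succ n ih =>
    intro z hz
    by_cases hd : ∀ i, lτ (acts i).2 (h i) z = .done
    · exact ⟨0, by omega, by simp, by simpa using hd⟩
    · obtain ⟨j, hj, h1, h2⟩ := ih (z - 1) (fun i => by have := hz i; push_cast at this; linarith)
      refine ⟨j + 1, by omega, ?_, fun i => by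
        have := h2 i
        rwa [show z - 1 - (j:ℤ) = z - ((j + 1 : ℕ) : ℤ) by push_cast; ring] at this⟩
      rw [Function.iterate_succ_apply, step_L hd, h1]
      congr 1
      push_cast
      ring

/-- whether the new mark is a pending one -/
def npend (mv : Move) : Bool := match mv with
  | .right => true
  | _ => false

/-- the cell of the new mark -/
def ny (mv : Move) (h : ℤ) : ℤ := match mv with
  | .left => h - 1
  | _ => h

theorem hp_new (mv : Move) (h : ℤ) : hp (npend mv) (ny mv h) = h + mv.toInt := by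
  cases mv <;> simp [hp, npend, ny, Move.toInt] <;> ring

theorem lt_ny {mv : Move} {h z : ℤ} (hd : lτ mv h z = .done) : z < ny mv h := by
  unfold lτ at hd
  by_cases h1 : h ≤ z
  · rw [if_pos h1] at hd; cases hd
  · rw [if_neg h1] at hd
    cases mv
    · by_cases h2 : z = h - 1
      · simp [h2] at hd
      · show z < h - 1
        omega
    · show z < h
      omega
    · show z < h
      omega

theorem lcell_done {Γ : Type} {f : ℤ → Γ} {act : Γ × Move} {h z : ℤ}
    (hd : lτ act.2 h z = .done) (x : ℤ) :
    lcell f act h z x = (Function.update f h act.1 x, rμ (npend act.2) (ny act.2 h) z x) := by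
  have hlt := lt_ny hd
  obtain ⟨g, mv⟩ := act
  unfold lcell rμ
  simp only at hlt ⊢
  rw [if_pos hlt.le]
  cases mv
  · have h1 : z < h - 1 := hlt
    have h2 : ¬ h ≤ z := by omega
    have h3 : z ≠ h - 1 := by omega
    simp [h2, h3, npend, ny, Function.update_apply]
  · have h1 : z < h := hlt
    have h2 : ¬ h ≤ z := by omega
    simp [h2, npend, ny, Function.update_apply]
  · have h1 : z < h := hlt
    have h2 : ¬ h ≤ z := by omega
    simp [h2, npend, ny, Function.update_apply]

theorem turn_L {q : M.Q} {acts : Fin (M.t + 1) → M.Γ × Move} {h : Fin (M.t + 1) → ℤ}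
    {f : Fin (M.t + 1) → ℤ → M.Γ} {z : ℤ} (hz : ∀ i, lτ (acts i).2 (h i) z = .done) :
    (sim M).step (cfgL M q acts h f z)
      = cfgR M q (fun i => npend (acts i).2) (fun i => ny (acts i).2 (h i))
          (fun i => Function.update (f i) (h i) (acts i).1) z := by
  unfold cfgL cfgR
  rw [sim_step rfl (tr_upd_pos hz), Function.update_eq_self]
  congr 1
  · congr 1
    funext i
    unfold rσ
    rw [if_pos (lt_ny (hz i)).le]
  · simp [Move.toInt]
  · funext x i
    exact lcell_done (hz i) x

theorem one_step {c : M.Cfg} (hc : M.answer c.q = none) {s : ℕ} (hpos : ∀ i, |c.pos i| ≤ s)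
    {pend : Fin (M.t + 1) → Bool} {y : Fin (M.t + 1) → ℤ} {z : ℤ}
    (hhp : ∀ i, hp (pend i) (y i) = c.pos i) (hz : -(s : ℤ) - 2 ≤ z) (hzy : ∀ i, z ≤ y i) :
    ∃ n ≤ 4 * s + 8, ∃ (pend' : Fin (M.t + 1) → Bool) (y' : Fin (M.t + 1) → ℤ) (z' : ℤ),
      (sim M).step^[n] (cfgR M c.q pend y c.tape z)
        = cfgR M (M.step c).q pend' y' (M.step c).tape z' ∧
      (∀ i, hp (pend' i) (y' i) = (M.step c).pos i) ∧ (∀ i, z' ≤ y' i) ∧
      -((s + 1 : ℕ) : ℤ) - 2 ≤ z' := by
  have hb := fun i => abs_le.mp (hpos i)
  obtain ⟨j, hj, h1, h2⟩ := sweep_R (f := c.tape) hc ((s : ℤ) + 1 - z).toNat z (pend := pend)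
    (y := y) (fun i => by
      have := (hb i).2
      rw [hhp i]
      have h3 := Int.self_le_toNat ((s : ℤ) + 1 - z)
      linarith)
  have hzs : z ≤ s := by
    have a1 := hzy 0
    have a2 := hhp 0
    have a3 := (hb 0).2
    have a4 : y 0 ≤ hp (pend 0) (y 0) := by unfold hp; split_ifs <;> omega
    linarith
  have hj' : (j : ℤ) ≤ s + 1 - z := by
    have : ((((s : ℤ) + 1 - z).toNat : ℕ) : ℤ) = s + 1 - z := Int.toNat_of_nonneg (by linarith)
    have : (j : ℤ) ≤ (((s : ℤ) + 1 - z).toNat : ℕ) := by exact_mod_cast hj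
    linarith
  have h3 := turn_R (f := c.tape) hc h2
  simp only [hhp] at h3
  set r := M.trans c.q (fun i => c.tape i (c.pos i)) with hr
  obtain ⟨j', hj2, h4, h5⟩ := sweep_L (q := r.1) (acts := r.2) (h := c.pos) (f := c.tape)
    ((s : ℤ) + 2 + (z + j)).toNat (z + j) (fun i => by
      have := (hb i).1
      have h3 := Int.self_le_toNat ((s : ℤ) + 2 + (z + j))
      linarith)
  have hj2' : (j' : ℤ) ≤ s + 2 + (z + j) := by
    have : ((((s : ℤ) + 2 + (z + j)).toNat : ℕ) : ℤ) = s + 2 + (z + j) :=
      Int.toNat_of_nonneg (by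
        have : (0:ℤ) ≤ j := by positivity
        linarith)
    have : (j' : ℤ) ≤ (((s : ℤ) + 2 + (z + j)).toNat : ℕ) := by exact_mod_cast hj2
    linarith
  have h6 := turn_L h5 (f := c.tape) (q := r.1)
  refine ⟨j + 1 + (j' + 1), ?_, fun i => npend (r.2 i).2, fun i => ny (r.2 i).2 (c.pos i),
    z + j - j', ?_, ?_, ?_, ?_⟩
  · zify
    linarith
  · have e1 : (sim M).step^[j + 1 + (j' + 1)] (cfgR M c.q pend y c.tape z)
        = (sim M).step ((sim M).step^[j'] ((sim M).step ((sim M).step^[j]
          (cfgR M c.q pend y c.tape z)))) := by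
      rw [show j + 1 + (j' + 1) = (j' + 1) + (j + 1) by ring, Function.iterate_add_apply,
        Function.iterate_succ_apply', Function.iterate_succ_apply']
    rw [e1, h1, h3, h4, h6]
    have e2 : (M.step c).q = r.1 := by unfold TM.step; rw [hc]
    have e3 : (M.step c).tape = fun i => Function.update (c.tape i) (c.pos i) (r.2 i).1 := by
      unfold TM.step; rw [hc]
    rw [e2, e3]
  · intro i
    have e4 : (M.step c).pos i = c.pos i + (r.2 i).2.toInt := by unfold TM.step; rw [hc]
    rw [e4]
    exact hp_new _ _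
  · intro i
    exact (lt_ny (h5 i)).le
  · push_cast
    linarith

theorem pos_bound (w : List Bool) (s : ℕ) (i : Fin (M.t + 1)) :
    |(M.step^[s] (M.init w)).pos i| ≤ s := by
  induction s with
  | zero => simp [TM.init]
  | succ s ih =>
    rw [Function.iterate_succ_apply']
    set c := M.step^[s] (M.init w) with hc
    push_cast
    unfold TM.step
    cases h : M.answer c.q with
    | some a => simp only; linarith
    | none =>
      simp only
      have : |((M.trans c.q (fun i => c.tape i (c.pos i))).2 i).2.toInt| ≤ 1 := by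
        cases ((M.trans c.q (fun i => c.tape i (c.pos i))).2 i).2 <;> simp [Move.toInt]
      calc _ ≤ |c.pos i| + |((M.trans c.q (fun i => c.tape i (c.pos i))).2 i).2.toInt| :=
            abs_add_le _ _
        _ ≤ s + 1 := by linarith

/-- The initial tape of the simulating machine. -/
def itape (M : TM Bool) (w : List Bool) (x : ℤ) : Fin (M.t + 1) → M.Γ × Mk :=
  if h : 0 ≤ x ∧ x.toNat < w.length then
    (fun i => (if i = 0 then M.embed (w[x.toNat]'h.2) else M.blank, Mk.N))
  else fun _ => (M.blank, Mk.N)

theorem itape_eq (w : List Bool) (x : ℤ) (i : Fin (M.t + 1)) :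
    itape M w x i = ((M.init w).tape i x, Mk.N) := by
  show _ = ((if h : i = 0 ∧ 0 ≤ x ∧ x.toNat < w.length then M.embed (w[x.toNat]'h.2.2)
      else M.blank), Mk.N)
  unfold itape
  by_cases h : 0 ≤ x ∧ x.toNat < w.length
  · rw [dif_pos h]
    by_cases hi : i = 0
    · rw [dif_pos ⟨hi, h⟩]
      simp only [if_pos hi]
    · rw [dif_neg (fun h' => hi h'.1)]
      simp only [if_neg hi]
  · rw [dif_neg h, dif_neg (fun h' => h h'.2)]

theorem first_step (w : List Bool) :
    (sim M).step ((sim M).init w)
      = cfgR M (M.init w).q (fun _ => false) (fun _ => 0) (M.init w).tape 0 := by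
  have e0 : (sim M).init w = mk St.start 0 (itape M w) := rfl
  have e1 : tr M St.start (itape M w 0)
      = (St.coll M.start (fun _ => .search), (fun i => ((itape M w 0 i).1, Mk.H)), .stay) := rfl
  rw [e0, sim_step (q := St.start) rfl e1]
  unfold cfgR
  congr 1
  funext x i
  rcases eq_or_ne x 0 with hx | hx
  · subst hx
    rw [Function.update_self, itape_eq]
    simp [rμ]
  · rw [Function.update_of_ne hx, itape_eq]
    simp [rμ, hx]

theorem main (w : List Bool) (s : ℕ) :
    ∃ s' ≤ s * (4 * s + 8) + 1, ∃ (pend : Fin (M.t + 1) → Bool) (y : Fin (M.t + 1) → ℤ) (z : ℤ),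
      (sim M).step^[s'] ((sim M).init w)
        = cfgR M (M.step^[s] (M.init w)).q pend y (M.step^[s] (M.init w)).tape z ∧
      (∀ i, hp (pend i) (y i) = (M.step^[s] (M.init w)).pos i) ∧ (∀ i, z ≤ y i) ∧
      -(s : ℤ) - 2 ≤ z := by
  induction s with
  | zero =>
    exact ⟨1, by omega, fun _ => false, fun _ => 0, 0, first_step w, fun i => by simp [hp, TM.init],
      fun i => le_rfl, by simp⟩
  | succ s ih =>
    obtain ⟨s', hs', pend, y, z, h1, h2, h3, h4⟩ := ih
    rw [Function.iterate_succ_apply']
    set c := M.step^[s] (M.init w) with hc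
    cases h : M.answer c.q with
    | some a =>
      have hstep : M.step c = c := by unfold TM.step; rw [h]
      rw [hstep]
      refine ⟨s', hs'.trans ?_, pend, y, z, h1, h2, h3, by push_cast; linarith⟩
      nlinarith
    | none =>
      obtain ⟨n, hn, pend', y', z', g1, g2, g3, g4⟩ :=
        one_step h (fun i => pos_bound w s i) h2 h4 h3
      refine ⟨n + s', ?_, pend', y', z', ?_, g2, g3, g4⟩
      · nlinarith
      · rw [Function.iterate_add_apply, h1, g1]

end MultiOne

open MultiOne in
theorem exists_oneTape (M : TM Bool) : ∃ (M' : OneTapeTM Bool) (C : ℕ), ∀ w s a,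
    M.HaltsWith w s a → ∃ s' ≤ C * (s + w.length + 1) ^ 2,
      M'.answer (M'.step^[s'] (M'.init w)).q = some a := by
  refine ⟨sim M, 8, fun w s a h => ?_⟩
  obtain ⟨s', hs', pend, y, z, h1, -⟩ := main (M := M) w s
  refine ⟨s', hs'.trans ?_, ?_⟩
  · have : s ≤ s + w.length := Nat.le_add_right _ _
    nlinarith
  · rw [h1]
    exact h

end Vale.Agent.P310
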