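import Vale.Agent.P310.NumG
import Vale.Agent.P312.LSLib

/-!
# P310, P10: the bits of the output word are computable by counter programs
-/

namespace Vale.Agent.P310

open P312 Finset

section Length

variable {α : Type} {n : ℕ}

/-- Is this an input symbol? -/
def isIn : InSym α → Bool
  | .sym _ => true
  | _ => false

theorem LS_length : LS (fun (w : List α) (_ : Fin n → ℕ) => w.length) := by
  refine ⟨2, 1, ?_, ?_⟩
  · intro w v b _
    nlinarith [Nat.zero_le w.length, Nat.zero_le b]
  · intro ins out base hins hout hne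
    refine ⟨.seq (.inc base) (.seq (.whileNZ base (.seq (.inMove .right)
      (.inCase isIn (.inc out) (.dec base)))) (homeC base)), ?_, ?_⟩
    · refine ⟨?_, ⟨?_, trivial, ?_, ?_⟩, ?_, ?_, ?_, trivial⟩ <;>
        first | omega | (simp only [Cmd.RegsBelow]; omega)
    · intro w σ b B hb ho h0 hB
      have hB1 : w.length + 2 < B := by
        refine lt_of_lt_of_le ?_ hB
        nlinarith [Nat.zero_le w.length, Nat.zero_le b]
      have hbase : σ base = 0 := h0 base (le_refl _)
      have hob : out ≠ base := by omega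
      have r1 : Run w B (.inc base) ⟨σ, 0⟩ ⟨Function.update σ base 1, 0⟩ := by
        have := Run.inc (w := w) (B := B) base ⟨σ, 0⟩ (by simp only [hbase]; omega)
        simp only [hbase] at this
        exact this
      have r2 := run_while w B base (.seq (.inMove .right)
        (.inCase isIn (.inc out) (.dec base))) (w.length + 1)
        (fun j => if j ≤ w.length then
          ⟨Function.update (Function.update σ base 1) out j, j⟩
          else ⟨Function.update σ out w.length, w.length + 1⟩)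
        (by
          intro j hj
          rw [if_pos (by omega)]
          refine ⟨by
            change Function.update (Function.update σ base 1) out j base ≠ 0
            rw [Function.update_of_ne (Ne.symm hob), Function.update_self]; omega, ?_⟩
          refine Run.seq (Run.inMove .right _) ?_
          have hm : moveInput w.length j .right = j + 1 := by
            simp only [moveInput]; omega
          simp only [hm]
          by_cases hjl : j + 1 ≤ w.length
          · rw [if_pos hjl]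
            have hin : isIn (inputAt w (j + 1)) = true := by
              simp only [inputAt]
              rw [if_neg (by omega), Nat.add_sub_cancel, List.getElem?_eq_getElem (by omega)]
              rfl
            refine Run.inTrue hin ((Run.inc out _ (by
              simp only [Function.update_self]; omega)).to ?_)
            simp only [Function.update_self, Function.update_idem]
          · have hje : j = w.length := by omega
            subst hje
            rw [if_neg (by omega)]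
            have hin : isIn (inputAt w (w.length + 1)) = false := by
              simp only [inputAt]
              rw [if_neg (by omega), Nat.add_sub_cancel, List.getElem?_eq_none (by omega)]
              rfl
            refine Run.inFalse hin ((Run.dec base _).to ?_)
            funext r
            by_cases hr : r = base
            · subst hr
              simp [Function.update_of_ne (Ne.symm hob), hbase]
            · by_cases hr' : r = out
              · subst hr'
                simp [Function.update_of_ne hr]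
              · simp [Function.update_of_ne hr, Function.update_of_ne hr'])
        (by
          rw [if_neg (by omega)]
          simp only [Function.update_of_ne (Ne.symm hob), hbase])
      rw [if_pos (by omega), if_neg (by omega)] at r2
      have e0 : Function.update (Function.update σ base 1) out 0 = Function.update σ base 1 := by
        funext r
        by_cases hr : r = out
        · subst hr
          simp [Function.update_of_ne hob, ho]
        · simp [Function.update_of_ne hr]
      rw [e0] at r2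
      refine Run.seq r1 (Run.seq r2 (run_home w B base _ _ ?_ (by omega)))
      rw [Function.update_of_ne (Ne.symm hob)]
      exact hbase

end Length

variable {n : ℕ} {f g h c x b t e u v' X k kd : List Bool → (Fin n → ℕ) → ℕ}

theorem LSP.imp {p p' : List Bool → (Fin n → ℕ) → Prop} (hp : LSP p) (hp' : LSP p') :
    LSP (fun w v => p w v → p' w v) :=
  (hp.not.or hp').congr (fun w v => by tauto)

theorem LSP.ite {p q r : List Bool → (Fin n → ℕ) → Prop} (hp : LSP p) (hq : LSP q) (hr : LSP r) :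
    LSP (fun w v => (p w v ∧ q w v) ∨ (¬ p w v ∧ r w v)) :=
  (hp.and hq).or (hp.not.and hr)

/-- Bounded universal quantifier, higher-order form. -/
theorem LSP.ballH {F : List Bool → (Fin n → ℕ) → ℕ → Prop}
    (hF : LSP (fun w (u : Fin (n + 1) → ℕ) => F w (fun i => u i.succ) (u 0))) (hf : LS f) :
    LSP (fun w v => ∀ a < f w v, F w v a) :=
  (LSP.ball hF hf).congr (fun w v => by simp)

theorem LSP.bexH {F : List Bool → (Fin n → ℕ) → ℕ → Prop}
    (hF : LSP (fun w (u : Fin (n + 1) → ℕ) => F w (fun i => u i.succ) (u 0))) (hf : LS f) :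
    LSP (fun w v => ∃ a < f w v, F w v a) :=
  (LSP.ballH (F := fun w v a => ¬ F w v a) hF.not hf).not.congr (fun w v => by
    push Not
    rfl)

theorem LS_sumH {F : List Bool → (Fin n → ℕ) → ℕ → ℕ}
    (hF : LS (fun w (u : Fin (n + 1) → ℕ) => F w (fun i => u i.succ) (u 0))) (hf : LS f) :
    LS (fun w v => ∑ a ∈ range (f w v), F w v a) :=
  (LS.sum hF hf).congr (fun w v => by simp)

theorem LS_bitAt (hf : LS f) : LS (fun w v => bitAt w (f w v)) := by
  have h1 := LS.symAt (fun b : Bool => if b then 1 else 0) hf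
  refine (LS.ite (LSP.eq h1 (LS.const 2)) (LS.const 1) (LS.const 0)).congr (fun w v => ?_)
  unfold bitAt
  cases hb : w[f w v]? with
  | none => simp
  | some b => cases b <;> simp

theorem LS_numSym : LS (fun (w : List Bool) (_ : Fin n → ℕ) => numSym w) := by
  have hP : LSP (fun (w : List Bool) (u : Fin (n + 1) → ℕ) => bitAt w (u 0) = 0) :=
    LSP.eq (LS_bitAt (LS.var 0)) (LS.const 0)
  classical
  refine (LS.mu hP (LS_length (n := n))).congr (fun w v => ?_)
  simp [numSym]

theorem LSP_tabOK (h1 : LS f) (h2 : LS g) (h3 : LS h) (h4 : LS c) :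
    LSP (fun w v => tabOK w (f w v) (g w v) (h w v) (c w v)) := by
  have hE := LS_numSym (n := n)
  exact (LSP.lt h1 hE).and ((LSP.lt h2 hE).and ((LSP.lt h3 hE).and ((LSP.lt h4 hE).and
    (LSP.eq (LS_bitAt ((hE.add (LS.const 1)).add
      ((((((h1.mul hE).add h2).mul hE).add h3).mul hE).add h4))) (LS.const 1)))))

theorem LSP_accOK (h1 : LS f) : LSP (fun w v => accOK w (f w v)) := by
  have hE := LS_numSym (n := n)
  exact (LSP.lt h1 hE).and (LSP.eq (LS_bitAt (((hE.add (LS.const 1)).add
    (((hE.mul hE).mul hE).mul hE)).add h1)) (LS.const 1))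

theorem LS_initSym (h1 : LS f) : LS (fun w v => initSym w (f w v)) := by
  unfold initSym
  exact LS.ite (LSP.eq h1 (LS.const 0)) (LS.const 3) ((LS.const 1).add (LS_bitAt h1))

theorem LS_qOf : LS (fun (w : List Bool) (_ : Fin n → ℕ) => qOf w) :=
  LS_length.add (LS.const 2)

theorem LS_pB (hk : LS k) : LS (fun w v => pB (k w v)) := (hk.mul hk).add (LS.const 1)

theorem LS_pc (hk : LS k) (hf : LS f) (hg : LS g) :
    LS (fun w v => pc (k w v) (f w v) (g w v)) := ((hf.min hg).mul hk).add (hf.max hg)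

theorem LSP_pcOK (hk : LS k) (hf : LS f) : LSP (fun w v => pcOK (k w v) (f w v)) :=
  LSP.lt (hf.div hk) (hf.mod hk)

theorem LS_pTop (hk : LS k) : LS (fun w v => pTop (k w v)) :=
  ((hk.mul hk).sub hk).sub (LS.const 1)

theorem LS_numC (hk : LS k) : LS (fun w v => numC w (k w v)) :=
  ((LS.const 12).mul (((LS_qOf.mul LS_qOf).mul LS_qOf).mul LS_qOf)).mul (LS_pB hk)

theorem LS_cP (hk : LS k) (hc : LS c) : LS (fun w v => cP (k w v) (c w v)) := hc.mod (LS_pB hk)
theorem LS_cX4 (hk : LS k) (hc : LS c) : LS (fun w v => cX4 w (k w v) (c w v)) :=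
  (hc.div (LS_pB hk)).mod LS_qOf
theorem LS_cX3 (hk : LS k) (hc : LS c) : LS (fun w v => cX3 w (k w v) (c w v)) :=
  ((hc.div (LS_pB hk)).div LS_qOf).mod LS_qOf
theorem LS_cX2 (hk : LS k) (hc : LS c) : LS (fun w v => cX2 w (k w v) (c w v)) :=
  (((hc.div (LS_pB hk)).div LS_qOf).div LS_qOf).mod LS_qOf
theorem LS_cX1 (hk : LS k) (hc : LS c) : LS (fun w v => cX1 w (k w v) (c w v)) :=
  ((((hc.div (LS_pB hk)).div LS_qOf).div LS_qOf).div LS_qOf).mod LS_qOf
theorem LS_cKd (hk : LS k) (hc : LS c) : LS (fun w v => cKd w (k w v) (c w v)) :=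
  ((((hc.div (LS_pB hk)).div LS_qOf).div LS_qOf).div LS_qOf).div LS_qOf

theorem LS_goalC (hk : LS k) : LS (fun w v => goalC w (k w v)) := by
  have hq := LS_qOf (n := n)
  have h0 : LS (fun (_ : List Bool) (_ : Fin n → ℕ) => 0) := LS.const 0
  exact (((((((((LS.const 11).mul hq).add h0).mul hq).add h0).mul hq).add h0).mul hq).add h0).mul
    (LS_pB hk) |>.add h0

theorem LS_nbKd (hf : LS kd) : LS (fun w v => nbKd (kd w v)) := by
  unfold nbKd
  exact LS.ite (LSP.eq hf (LS.const 0)) (LS.const 3)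
    (LS.ite ((LSP.eq hf (LS.const 7)).or ((LSP.eq hf (LS.const 8)).or (LSP.le (LS.const 11) hf)))
      (LS.const 0) (LS.const 1))

theorem LS_nbN (hk : LS k) (hc : LS c) : LS (fun w v => nbN w (k w v) (c w v)) :=
  LS_nbKd (LS_cKd hk hc)

theorem LS_shComp (hf : LS kd) : LS (fun w v => shComp (kd w v)) := by
  unfold shComp
  exact LS.ite ((LSP.eq hf (LS.const 1)).or (LSP.eq hf (LS.const 5))) (LS.const 1)
    (LS.ite ((LSP.eq hf (LS.const 2)).or ((LSP.eq hf (LS.const 3)).or ((LSP.eq hf (LS.const 4)).or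
      (LSP.eq hf (LS.const 6))))) (LS.const 2) (LS.const 0))

theorem LS_stmtN (hk : LS k) (hc : LS c) (hb : LS b) :
    LS (fun w v => stmtN w (k w v) (c w v) (b w v)) := by
  unfold stmtN
  dsimp only
  have hq := LS_qOf (n := n)
  have h1 := LS_cX1 hk hc
  have h2 := LS_cX2 hk hc
  have h3 := LS_cX3 hk hc
  have h4 := LS_cX4 hk hc
  have hkd := LS_cKd hk hc
  have e : ∀ a : ℕ, LSP (fun (w : List Bool) (v : Fin n → ℕ) => cKd w (k w v) (c w v) = a) :=
    fun a => LSP.eq hkd (LS.const a)
  have eb : ∀ a : ℕ, LSP (fun (w : List Bool) (v : Fin n → ℕ) => b w v = a) :=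
    fun a => LSP.eq hb (LS.const a)
  have m : ∀ a : ℕ, LS (fun (w : List Bool) (_ : Fin n → ℕ) => a * qOf w) :=
    fun a => (LS.const a).mul hq
  exact LS.ite (e 0) (LS.ite (eb 0) h1 (LS.ite (eb 1) (hq.add h2) (LS.ite (eb 2) ((m 2).add h3)
      ((m 3).add h4))))
    (LS.ite (e 1) (LS.ite (eb 0) ((m 3).add h1) h1)
    (LS.ite (e 2) (LS.ite (eb 0) h1 (hq.add h1))
    (LS.ite (e 3) (LS.ite (eb 0) (hq.add h1) ((m 2).add h1))
    (LS.ite (e 4) (m 4)
    (LS.ite (e 5) (m 5)
    (LS.ite (e 6) (m 5)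
    (LS.ite (e 7) ((LS_initSym h1).mod hq)
    (LS.ite (e 8) (m 4)
    (LS.ite (e 9) (LS.ite (eb 0) (m 4) (LS.const 0))
    (LS.ite (e 10) (LS.ite (eb 0) h1 (m 5)) (m 5)))))))))))

theorem LS_shN (hk : LS k) (hc : LS c) (hb : LS b) (he : LS e) (hx : LS x) :
    LS (fun w v => shN w (k w v) (c w v) (b w v) (e w v) (x w v)) := by
  unfold shN
  exact LS.ite ((LSP.eq hb (LS.const 0)).and ((LSP.eq (LS_shComp (LS_cKd hk hc)) hx).and
    (LSP.le he (LS_cP hk hc)))) (LS.const 1) (LS.const 0)

theorem LSP_clOK (hk : LS k) (hc : LS c) : LSP (fun w v => clOK w (k w v) (c w v)) := by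
  have hkd := LS_cKd hk hc
  have e : ∀ a : ℕ, LSP (fun (w : List Bool) (v : Fin n → ℕ) => cKd w (k w v) (c w v) = a) :=
    fun a => LSP.eq hkd (LS.const a)
  exact (LSP.imp (e 0) (LSP_tabOK (LS_cX1 hk hc) (LS_cX2 hk hc) (LS_cX3 hk hc)
      (LS_cX4 hk hc))).and
    ((LSP.imp (((LSP.le (LS.const 1) hkd).and (LSP.le hkd (LS.const 6))).or (e 9))
      (LSP_pcOK hk (LS_cP hk hc))).and
    ((LSP.imp (e 7) (LSP.lt (LS_cX1 hk hc) LS_length)).and
    ((LSP.imp (e 10) (LSP_accOK (LS_cX1 hk hc))).and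
    (LSP.imp (e 11) (LSP.eq hc (LS_goalC hk))))))

theorem LSP_digOK (hk : LS k) (hc : LS c) (he : LS e) (hu : LS u) (hv : LS v') :
    LSP (fun w v => digOK w (k w v) (c w v) (e w v) (u w v) (v' w v)) := by
  have hkd := LS_cKd hk hc
  have hq := LS_qOf (n := n)
  have hq1 := hq.sub (LS.const (α := Bool) (n := n) 1)
  have ek : ∀ a : ℕ, LSP (fun (w : List Bool) (v : Fin n → ℕ) => cKd w (k w v) (c w v) = a) :=
    fun a => LSP.eq hkd (LS.const a)
  have es : ∀ a : ℕ, LSP (fun (w : List Bool) (v : Fin n → ℕ) =>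
      shComp (cKd w (k w v) (c w v)) = a) := fun a => LSP.eq (LS_shComp hkd) (LS.const a)
  have hp := LS_cP hk hc
  have hlt := LSP.lt he hp
  have heq := LSP.eq he hp
  have e1 := LSP.eq he (LS.const (α := Bool) (n := n) 1)
  have et := LSP.eq he (LS_pTop hk)
  have p1 := (LSP.imp hlt (LSP.eq hu hq1)).and (LSP.imp heq (LSP.ne hu hq1))
  have p2 := (LSP.imp hlt (LSP.eq hv hq1)).and (LSP.imp heq (LSP.ne hv hq1))
  have h7 : LS (fun w v => if e w v = 1 then cX1 w (k w v) (c w v)
      else if e w v = pTop (k w v) then 1 else 0) :=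
    LS.ite e1 (LS_cX1 hk hc) (LS.ite et (LS.const 1) (LS.const 0))
  have h9 : LSP (fun w v => if e w v = 1 then w.length ≤ v' w v else
      if e w v = pTop (k w v) then v' w v ≠ 1 else v' w v ≠ 0) := by
    refine ((LSP.ite e1 (LSP.le LS_length hv) (LSP.ite et (LSP.ne hv (LS.const 1))
      (LSP.ne hv (LS.const 0))))).congr (fun w v => ?_)
    split_ifs <;> tauto
  exact (LSP.imp (es 1) p1).and ((LSP.imp (es 2) p2).and
    ((LSP.imp (ek 7) ((LSP.eq hu hq1).and (LSP.eq hv h7))).and
    ((LSP.imp (ek 8) ((LSP.eq hu hq1).and (LSP.eq hv hq1))).and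
    ((LSP.imp (ek 9) (LSP.imp heq h9)).and
    (LSP.imp (ek 11) ((LSP.eq hu (LS.const 0)).and (LSP.eq hv (LS.const 0))))))))

theorem LSP_condN (hk : LS k) (hc : LS c) (he : LS e) (hu : LS u) (hv : LS v') :
    LSP (fun w v => condN w (k w v) (c w v) (e w v) (u w v) (v' w v)) :=
  (LSP_clOK hk hc).and (LSP_digOK hk hc he hu hv)

/-! ### Axioms -/

theorem LS_qq : LS (fun (w : List Bool) (_ : Fin n → ℕ) => qq w) := LS_qOf.mul LS_qOf

theorem LS_ndB (hk : LS k) : LS (fun w v => ndB (k w v)) :=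
  (LS.const 7).mul (hk.add (LS.const 3))

theorem LS_xDig (hx : LS x) (hf : LS f) : LS (fun w v => xDig w (x w v) (f w v)) :=
  (LS.divPow hx LS_qq hf).mod LS_qq

theorem LS_xI (hk : LS k) (hx : LS x) : LS (fun w v => xI w (k w v) (x w v)) :=
  (LS.divPow hx LS_qq hk).mod hk

theorem LS_xL (hk : LS k) (hx : LS x) : LS (fun w v => xL w (k w v) (x w v)) :=
  (((LS.divPow hx LS_qq hk).div hk).mod (LS_ndB hk)).div (hk.add (LS.const 3))

theorem LS_xS (hk : LS k) (hx : LS x) : LS (fun w v => xS w (k w v) (x w v)) :=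
  (((LS.divPow hx LS_qq hk).div hk).mod (LS_ndB hk)).mod (hk.add (LS.const 3))

theorem LS_xC (hk : LS k) (hx : LS x) : LS (fun w v => xC w (k w v) (x w v)) :=
  ((LS.divPow hx LS_qq hk).div hk).div (LS_ndB hk)

theorem LSP_validN (hk : LS k) (hx : LS x) : LSP (fun w v => validN w (k w v) (x w v)) := by
  have hI := LS_xI hk hx
  have hL := LS_xL hk hx
  have hS := LS_xS hk hx
  have hC := LS_xC hk hx
  have hk' := hk.tail
  have hx' := hx.tail
  have hj : LS (fun (_ : List Bool) (u : Fin (n + 1) → ℕ) => u 0) := LS.var 0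
  have hd := LS_xDig hx' hj
  have hI' := LS_xI hk' hx'
  exact (LSP.imp (LSP.eq hS (LS.const 0)) (LSP.eq hL (LS.const 0))).and
    ((LSP.le hL ((LS.const 2).mul (LS_nbN hk hC))).and
    ((LSP.eq (LS_xDig hx hI) (LS.const 0)).and
    (LSP.ballH (F := fun w v j => j ≠ xI w (k w v) (x w v) → condN w (k w v)
      (xC w (k w v) (x w v)) (pc (k w v) (xI w (k w v) (x w v)) j)
      (xDig w (x w v) j / qOf w) (xDig w (x w v) j % qOf w))
      (LSP.imp (LSP.ne hj hI') (LSP_condN hk' (LS_xC hk' hx') (LS_pc hk' hI' hj)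
        (hd.div LS_qOf) (hd.mod LS_qOf))) hk)))

theorem LS_slotH (hk : LS k) (hx : LS x) (hb : LS b) :
    LS (fun w v => slotH w (k w v) (x w v) (b w v)) := by
  unfold slotH
  have hI := LS_xI hk hx
  have hL := LS_xL hk hx
  have hS := LS_xS hk hx
  have hC := LS_xC hk hx
  have hnd := LS_ndB hk
  have hk3 := hk.add (LS.const (α := Bool) (n := n) 3)
  have hbk := hb.sub hk
  have c1 := LS.const (α := Bool) (n := n) 1
  have c2 := LS.const (α := Bool) (n := n) 2
  have c3 := LS.const (α := Bool) (n := n) 3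
  have c0 := LS.const (α := Bool) (n := n) 0
  exact LS.ite (LSP.lt hb hk)
    (LS.ite (LSP.eq hb hI) c0
      (c1.add (c3.mul ((((hC.mul hnd).add ((hL.mul hk3).add hS)).mul (LS_pB hk)).add
        (LS_pc hk hI hb)))))
    (LS.ite (LSP.eq hS c0)
      (LS.ite (LSP.le hbk (c2.mul (LS_nbN hk hC)))
        (c2.add (c3.mul ((((hC.mul hnd).add (hbk.mul hk3)).mul hk).add hI))) c0)
      (LS.ite (LSP.eq hbk c0)
        (c2.add (c3.mul ((((hC.mul hnd).add ((hL.mul hk3).add (hS.sub c1))).mul hk).add hI)))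
        (LS.ite (LSP.eq hbk c1)
          (LS.ite (LSP.lt hS (hk.add c2))
            (c2.add (c3.mul ((((hC.mul hnd).add ((hL.mul hk3).add hS)).mul hk).add hI)))
            (c3.add (c3.mul (((LS_stmtN hk hC (hL.div c2)).mul hk).add hI))))
          c0)))

theorem LS_slotD (hk : LS k) (hx : LS x) (hb : LS b) (hj : LS f) :
    LS (fun w v => slotD w (k w v) (x w v) (b w v) (f w v)) := by
  unfold slotD
  have hI := LS_xI hk hx
  have hL := LS_xL hk hx
  have hS := LS_xS hk hx
  have hC := LS_xC hk hx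
  have hbk := hb.sub hk
  have hq := LS_qOf (n := n)
  have c1 := LS.const (α := Bool) (n := n) 1
  have c2 := LS.const (α := Bool) (n := n) 2
  have c0 := LS.const (α := Bool) (n := n) 0
  have hpc := LS_pc hk hI hj
  have hd := LS_xDig hx hj
  have hl2 := hL.div c2
  exact LS.ite (LSP.lt hb hk) (LS_xDig hx hb)
    (LS.ite ((LSP.ne hS c0).and ((LSP.eq hbk c1).and ((LSP.lt hS (hk.add c2)).not.and
      (LSP.ne hj hI))))
      (((((hd.div hq).add (LS_shN hk hC hl2 hpc c1)).mod hq).mul hq).add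
        (((hd.mod hq).add (LS_shN hk hC hl2 hpc c2)).mod hq))
      hd)

theorem LSP_sameN {x' b' : List Bool → (Fin n → ℕ) → ℕ} (hk : LS k) (hx : LS x) (hb : LS b)
    (hx' : LS x') (hb' : LS b') :
    LSP (fun w v => sameN w (k w v) (x w v) (b w v) (x' w v) (b' w v)) := by
  have h1 := LS_slotH hk hx hb
  have h2 := LS_slotH hk hx' hb'
  have hj : LS (fun (_ : List Bool) (u : Fin (n + 1) → ℕ) => u 0) := LS.var 0
  exact (LSP.ne h1 (LS.const 0)).and ((LSP.eq h1 h2).and
    (LSP.ballH (F := fun w v j => slotD w (k w v) (x w v) (b w v) j =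
      slotD w (k w v) (x' w v) (b' w v) j)
      (LSP.eq (LS_slotD hk.tail hx.tail hb.tail hj) (LS_slotD hk.tail hx'.tail hb'.tail hj)) hk))

theorem LS_twN (hk : LS k) (hx : LS x) : LS (fun w v => twN w (k w v) (x w v)) := by
  unfold twN
  exact LS.ite ((LSP.eq (LS_xC hk hx) (LS_goalC hk)).and ((LSP.eq (LS_xL hk hx) (LS.const 0)).and
    ((LSP.eq (LS_xS hk hx) (LS.const 0)).and (LSP.eq (LS_xI hk hx) (LS.const 0)))))
    (LS.const 1) (LS.const 0)

theorem LS_bit (hf : LS f) (hg : LS g) : LS (fun w v => f w v / 2 ^ g w v % 2) :=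
  (LS.divPow hf (LS.const 2) hg).mod (LS.const 2)

theorem LSP_goodN (hk : LS k) (ht : LS t) (hx : LS x) (hf : LS f) :
    LSP (fun w v => goodN w (k w v) (t w v) (x w v) (f w v)) := by
  have hj : LS (fun (_ : List Bool) (u : Fin (n + 1) → ℕ) => u 0) := LS.var 0
  have hk7 := hk.add (LS.const (α := Bool) (n := n) 7)
  exact (LSP_validN hk hx).and
    ((LSP.ballH (F := fun w v b => slotH w (k w v) (x w v) b = 0 → f w v / 2 ^ b % 2 = 0)
      (LSP.imp (LSP.eq (LS_slotH hk.tail hx.tail hj) (LS.const 0))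
        (LSP.eq (LS_bit hf.tail hj) (LS.const 0))) hk7).and
    (LSP.eq ((LS_sumH (F := fun w v b => f w v / 2 ^ b % 2) (LS_bit hf.tail hj) hk7).mod
      (LS.const 2)) (ht.mul (LS_twN hk hx))))

theorem LSP_shareN {x' : List Bool → (Fin n → ℕ) → ℕ} (hk : LS k) (hx : LS x) (hx' : LS x') :
    LSP (fun w v => shareN w (k w v) (x w v) (x' w v)) := by
  have hk7 := hk.add (LS.const (α := Bool) (n := n) 7)
  have hb : LS (fun (_ : List Bool) (u : Fin (n + 1 + 1) → ℕ) => u 1) := LS.var 1
  have hb' : LS (fun (_ : List Bool) (u : Fin (n + 1 + 1) → ℕ) => u 0) := LS.var 0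
  exact LSP.bexH (F := fun w v b => ∃ b' < k w v + 7, sameN w (k w v) (x w v) b (x' w v) b')
    (LSP.bexH (F := fun w (u : Fin (n + 1) → ℕ) b' =>
      sameN w (k w (fun i => u i.succ)) (x w (fun i => u i.succ)) (u 0)
        (x' w (fun i => u i.succ)) b')
      (LSP_sameN hk.tail.tail hx.tail.tail hb hx'.tail.tail hb') hk7.tail) hk7

theorem LSP_agreeN {x' f' : List Bool → (Fin n → ℕ) → ℕ} (hk : LS k) (hx : LS x) (hf : LS f)
    (hx' : LS x') (hf' : LS f') :
    LSP (fun w v => agreeN w (k w v) (x w v) (f w v) (x' w v) (f' w v)) := by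
  have hk7 := hk.add (LS.const (α := Bool) (n := n) 7)
  have hb : LS (fun (_ : List Bool) (u : Fin (n + 1 + 1) → ℕ) => u 1) := LS.var 1
  have hb' : LS (fun (_ : List Bool) (u : Fin (n + 1 + 1) → ℕ) => u 0) := LS.var 0
  exact LSP.ballH (F := fun w v b => ∀ b' < k w v + 7,
      sameN w (k w v) (x w v) b (x' w v) b' → f w v / 2 ^ b % 2 = f' w v / 2 ^ b' % 2)
    (LSP.ballH (F := fun w (u : Fin (n + 1) → ℕ) b' =>
      sameN w (k w (fun i => u i.succ)) (x w (fun i => u i.succ)) (u 0)
        (x' w (fun i => u i.succ)) b' →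
        f w (fun i => u i.succ) / 2 ^ (u 0) % 2 = f' w (fun i => u i.succ) / 2 ^ b' % 2)
      (LSP.imp (LSP_sameN hk.tail.tail hx.tail.tail hb hx'.tail.tail hb')
        (LSP.eq (LS_bit hf.tail.tail hb) (LS_bit hf'.tail.tail hb'))) hk7.tail) hk7

theorem LSP_adjN {NX T v₁ v₂ : List Bool → (Fin n → ℕ) → ℕ} (hk : LS k) (hN : LS NX) (hT : LS T)
    (ht : LS t) (h1 : LS v₁) (h2 : LS v₂) :
    LSP (fun w v => adjN w (k w v) (NX w v) (T w v) (t w v) (v₁ w v) (v₂ w v)) := by
  have hW := hN.add (LS.const (α := Bool) (n := n) 3)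
  have hm := h1.mod hW
  have hx := (h1.div hW).div hT
  have hτ := (h1.div hW).mod hT
  have hm' := h2.mod hW
  have hx' := (h2.div hW).div hT
  have hτ' := (h2.div hW).mod hT
  have c0 := LS.const (α := Bool) (n := n) 0
  have c3 := LS.const (α := Bool) (n := n) 3
  have hg := LSP_goodN hk ht hx hτ
  exact ((LSP.eq hm c0).and ((LSP.eq hm' c0).and (hg.and ((LSP_goodN hk ht hx' hτ').and
    ((LSP.ne hx hx').and ((LSP_shareN hk hx hx').and (LSP_agreeN hk hx hτ hx' hτ'))))))).or
    ((((LSP.eq hm c0).and ((LSP.lt c0 hm').and (LSP.lt hm' (hx.add c3)))).or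
      ((LSP.eq hm' c0).and ((LSP.lt c0 hm).and (LSP.lt hm (hx.add c3))))).and
      (hg.and ((LSP.eq hx hx').and (LSP.eq hτ hτ'))))

theorem LSP_outP {NX T Z : List Bool → (Fin n → ℕ) → ℕ} (hk : LS k) (hN : LS NX) (hT : LS T)
    (hZ : LS Z) (hh : LS h) :
    LSP (fun w v => outP w (k w v) (NX w v) (T w v) (Z w v) (h w v)) := by
  have hn := (hN.mul hT).mul (hN.add (LS.const (α := Bool) (n := n) 3))
  have hn' := hn.add hZ
  have hnn := hn'.mul hn'
  have hr := hh.sub hnn
  exact ((LSP.lt hh hnn).and ((LSP.lt (hh.div hn') hn).and ((LSP.lt (hh.mod hn') hn).and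
    (LSP_adjN hk hN hT (LS.const 0) (hh.div hn') (hh.mod hn'))))).or
    ((LSP.le hnn hh).and ((LSP.lt (hr.div hn') hn).and ((LSP.lt (hr.mod hn') hn).and
    (LSP_adjN hk hN hT (LS.const 1) (hr.div hn') (hr.mod hn')))))

theorem LS_padN (hX : LS X) : LS (fun w v => padN w (X w v)) := by
  have hj : LS (fun (_ : List Bool) (u : Fin (n + 1) → ℕ) => u 0) := LS.var 0
  have hX1 := hX.tail.add (LS.const (α := Bool) (n := n + 1) 1)
  have hp := LS.powClamp (LS.const (α := Bool) (n := n + 1) 2) hj hX1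
  exact LS_sumH (F := fun w v i => if min (2 ^ i) (X w v + 1) ≤ X w v then
    bitAt w (w.length - 1 - i) * min (2 ^ i) (X w v + 1) else 0)
    (LS.ite (LSP.le hp hX.tail) ((LS_bitAt ((LS_length.sub (LS.const 1)).sub hj)).mul hp)
      (LS.const 0)) LS_length

theorem LS_NX (hk : LS k) (hX : LS X) :
    LS (fun w v => numC w (k w v) * ndB (k w v) * k w v * min (qq w ^ k w v) (X w v)) :=
  (((LS_numC hk).mul (LS_ndB hk)).mul hk).mul (LS.powClamp LS_qq hk hX)

theorem LS_T (hk : LS k) (hX : LS X) :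
    LS (fun w v => min (2 ^ (k w v + 7)) (X w v)) :=
  LS.powClamp (LS.const 2) (hk.add (LS.const 7)) hX

theorem LS_outBit : LS (fun (w : List Bool) (v : Fin 3 → ℕ) => outBit w (v 0) (v 1) (v 2)) := by
  classical
  have h0 : LS (fun (_ : List Bool) (v : Fin 3 → ℕ) => v 0) := LS.var 0
  have h1 : LS (fun (_ : List Bool) (v : Fin 3 → ℕ) => v 1) := LS.var 1
  have h2 : LS (fun (_ : List Bool) (v : Fin 3 → ℕ) => v 2) := LS.var 2
  refine (LS.ite (LSP_outP h0 (LS_NX h0 h1) (LS_T h0 h1) (LS_padN h1) h2) (LS.const 1)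
    (LS.const 0)).congr (fun w v => ?_)
  unfold outBit
  rfl

theorem LS_outLen : LS (fun (w : List Bool) (v : Fin 2 → ℕ) => outLen w (v 0) (v 1)) := by
  have h0 : LS (fun (_ : List Bool) (v : Fin 2 → ℕ) => v 0) := LS.var 0
  have h1 : LS (fun (_ : List Bool) (v : Fin 2 → ℕ) => v 1) := LS.var 1
  have hN := LS_NX h0 h1
  have hn' := ((hN.mul (LS_T h0 h1)).mul (hN.add (LS.const 3))).add (LS_padN h1)
  exact (LS.const 2).mul (hn'.mul hn')

end Vale.Agent.P310
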