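import Vale.Agent.P310.TM

/-!
# P310, package P13: the trivial quadratic lower bound
-/

namespace Vale.Agent.P310

open P312 (Move)

namespace TM

variable {α : Type} {M : TM α}

theorem step_of_halted (c : M.Cfg) (b : Bool) (h : M.answer c.q = some b) : M.step c = c := by
  unfold TM.step
  rw [h]

theorem iterate_of_halted (c : M.Cfg) (b : Bool) (h : M.answer c.q = some b) (n : ℕ) :
    M.step^[n] c = c := by
  induction n with
  | zero => rfl
  | succ n ih => rw [Function.iterate_succ_apply', ih, step_of_halted c b h]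

theorem haltsWith_unique {w : List α} {s t : ℕ} {b b' : Bool} (hs : M.HaltsWith w s b)
    (ht : M.HaltsWith w t b') : b = b' := by
  unfold TM.HaltsWith at hs ht
  rcases le_total s t with h | h
  · obtain ⟨n, rfl⟩ := Nat.exists_eq_add_of_le h
    rw [add_comm, Function.iterate_add_apply, iterate_of_halted _ b hs, hs] at ht
    exact Option.some.inj ht
  · obtain ⟨n, rfl⟩ := Nat.exists_eq_add_of_le h
    rw [add_comm, Function.iterate_add_apply, iterate_of_halted _ b' ht, ht] at hs
    exact (Option.some.inj hs).symm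

/-- Two configurations agree up to the cells `≥ P` of tape `0`, and the head of tape `0` is at a
cell `≤ j`. -/
def Same (M : TM α) (P : ℕ) (j : ℕ) (c c' : M.Cfg) : Prop :=
  c.q = c'.q ∧ c.pos = c'.pos ∧ c.pos 0 ≤ j ∧ (∀ i, i ≠ 0 → c.tape i = c'.tape i) ∧
    ∀ x : ℤ, x < P → c.tape 0 x = c'.tape 0 x

theorem Same.step {P j : ℕ} {c c' : M.Cfg} (h : Same M P j c c') (hj : j < P) :
    Same M P (j + 1) (M.step c) (M.step c') := by
  obtain ⟨h1, h2, h3, h4, h5⟩ := h
  have hread : (fun i => c.tape i (c.pos i)) = fun i => c'.tape i (c'.pos i) := by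
    funext i
    by_cases hi : i = 0
    · subst hi
      rw [← h2]
      exact h5 _ (by omega)
    · rw [h4 i hi, h2]
  unfold TM.step
  rcases hA : M.answer c.q with _ | b
  · have hA' : M.answer c'.q = none := by rw [← h1]; exact hA
    have key : (M.trans c.q fun i => c.tape i (c.pos i))
        = M.trans c'.q fun i => c'.tape i (c'.pos i) := by rw [hread, h1]
    rw [hA']
    refine ⟨?_, ?_, ?_, ?_, ?_⟩
    · simp only [key]
    · simp only [key]
      rw [h2]
    · simp only
      have : ((M.trans c.q fun i => c.tape i (c.pos i)).2 0).2.toInt ≤ 1 := by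
        rcases ((M.trans c.q fun i => c.tape i (c.pos i)).2 0).2 with _ | _ | _ <;>
          simp [Move.toInt]
      push_cast
      linarith
    · intro i hi
      simp only [key]
      rw [h4 i hi, h2]
    · intro x hx
      simp only [key]
      rw [h2]
      by_cases hxp : x = c'.pos 0
      · subst hxp
        rw [Function.update_self, Function.update_self]
      · rw [Function.update_of_ne hxp, Function.update_of_ne hxp]
        exact h5 x hx
  · have hA' : M.answer c'.q = some b := by rw [← h1]; exact hA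
    rw [hA']
    exact ⟨h1, h2, by push_cast; linarith, h4, h5⟩

theorem Same.init {P : ℕ} {w w' : List α} (hw : P ≤ w.length) (hw' : P ≤ w'.length)
    (h : ∀ i, i < P → w[i]? = w'[i]?) : Same M P 0 (M.init w) (M.init w') := by
  refine ⟨rfl, rfl, le_refl _, ?_, ?_⟩
  · intro i hi
    funext x
    unfold TM.init
    simp only
    rw [dif_neg (fun e => hi e.1), dif_neg (fun e => hi e.1)]
  · intro x hx
    unfold TM.init
    simp only
    by_cases hx0 : 0 ≤ x
    · have h1 : x.toNat < w.length := by omega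
      have h2 : x.toNat < w'.length := by omega
      rw [dif_pos ⟨trivial, hx0, h1⟩, dif_pos ⟨trivial, hx0, h2⟩]
      have h3 := h x.toNat (by omega)
      rw [List.getElem?_eq_getElem h1, List.getElem?_eq_getElem h2] at h3
      rw [Option.some.inj h3]
    · rw [dif_neg (fun e => hx0 e.2.1), dif_neg (fun e => hx0 e.2.1)]

theorem Same.iter {P : ℕ} {w w' : List α} (hw : P ≤ w.length) (hw' : P ≤ w'.length)
    (h : ∀ i, i < P → w[i]? = w'[i]?) (j : ℕ) (hj : j ≤ P) :
    Same M P j (M.step^[j] (M.init w)) (M.step^[j] (M.init w')) := by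
  induction j with
  | zero => exact Same.init hw hw' h
  | succ j ih =>
    rw [Function.iterate_succ_apply', Function.iterate_succ_apply']
    exact (ih (by omega)).step (by omega)

end TM

theorem encGraph_length {n : ℕ} (G : SimpleGraph (Fin n)) : (encGraph G).length = n * n := by
  unfold encGraph
  simp [List.length_flatMap]

/-- The graph with the single edge between the vertices `0` and `1`. -/
def oneEdge {n : ℕ} (a b : Fin n) : SimpleGraph (Fin n) where
  Adj x y := a ≠ b ∧ (x = a ∧ y = b ∨ x = b ∧ y = a)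
  symm := by
    refine ⟨?_⟩
    rintro x y ⟨h, h' | h'⟩
    · exact ⟨h, Or.inr ⟨h'.2, h'.1⟩⟩
    · exact ⟨h, Or.inl ⟨h'.2, h'.1⟩⟩
  loopless := by
    refine ⟨fun x h => ?_⟩
    obtain ⟨h, h' | h'⟩ := h
    · exact h (h'.1.symm.trans h'.2)
    · exact h (h'.2.symm.trans h'.1)

theorem not_wlEquiv_oneEdge {n k : ℕ} (hk : 2 ≤ k) {a b : Fin n} (hab : a ≠ b) :
    ¬ WLEquiv k (⊥ : SimpleGraph (Fin n)) (oneEdge a b) := by
  intro h
  have h0 := h 0
  let x : Fin k → Fin n := fun i => if i = ⟨0, by omega⟩ then a else b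
  have hx : col k (oneEdge a b) 0 x ∈
      (Finset.univ : Finset (Fin k → Fin n)).val.map (col k (oneEdge a b) 0) :=
    Multiset.mem_map_of_mem _ (Finset.mem_univ x)
  rw [← h0] at hx
  obtain ⟨y, -, hy⟩ := Multiset.mem_map.1 hx
  have h1 := congrArg Prod.snd hy
  have h2 := congrFun (congrFun h1 ⟨0, by omega⟩) ⟨1, by omega⟩
  have h3 : (oneEdge a b).Adj (x ⟨0, by omega⟩) (x ⟨1, by omega⟩) := by
    refine ⟨hab, Or.inl ⟨?_, ?_⟩⟩
    · simp [x]
    · simp [x]
  have h4 : (⊥ : SimpleGraph (Fin n)).Adj (y ⟨0, by omega⟩) (y ⟨1, by omega⟩) := by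
    change ((⊥ : SimpleGraph (Fin n)).Adj (y ⟨0, by omega⟩) (y ⟨1, by omega⟩)) = _ at h2
    rw [h2]
    exact h3
  exact h4

/-- A machine which decides `k`-WL equivalence has to read the second graph. -/
theorem TM.DecidesWL.le_worstTime {M : TM Bool} {k : ℕ} (hk : 2 ≤ k) (h : M.DecidesWL k) {n : ℕ}
    (hn : 3 ≤ n) : n ^ 2 ≤ M.worstTime n := by
  let a : Fin n := ⟨0, by omega⟩
  let b : Fin n := ⟨1, by omega⟩
  have hab : a ≠ b := by
    intro e
    have := congrArg Fin.val e
    simp [a, b] at this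
  have h1 := (h n ⊥ ⊥).1 (fun r => rfl)
  have h2 := (h n ⊥ (oneEdge a b)).2 (not_wlEquiv_oneEdge hk hab)
  have hle : M.time (encPair (⊥ : SimpleGraph (Fin n)) ⊥) ≤ M.worstTime n := by
    unfold TM.worstTime
    exact le_ciSup (f := fun p : SimpleGraph (Fin n) × SimpleGraph (Fin n) =>
      M.time (encPair p.1 p.2)) (Set.finite_range _).bddAbove (⊥, ⊥)
  refine le_trans ?_ hle
  by_contra hlt
  push Not at hlt
  obtain ⟨s, hs⟩ := h1
  have hne : {s | ∃ a, M.HaltsWith (encPair (⊥ : SimpleGraph (Fin n)) ⊥) s a}.Nonempty :=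
    ⟨s, true, hs⟩
  obtain ⟨c, hc⟩ := Nat.sInf_mem hne
  have hc' : M.HaltsWith (encPair (⊥ : SimpleGraph (Fin n)) ⊥)
      (M.time (encPair (⊥ : SimpleGraph (Fin n)) ⊥)) c := hc
  have hct : c = true := TM.haltsWith_unique hc' hs
  subst hct
  have hlen : ∀ G H : SimpleGraph (Fin n), n * n ≤ (encPair G H).length := by
    intro G H
    unfold encPair
    rw [List.length_append, encGraph_length, encGraph_length]
    omega
  have hsame : ∀ i, i < n * n → (encPair (⊥ : SimpleGraph (Fin n)) ⊥)[i]?
      = (encPair (⊥ : SimpleGraph (Fin n)) (oneEdge a b))[i]? := by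
    intro i hi
    unfold encPair
    rw [List.getElem?_append_left (by rw [encGraph_length]; exact hi),
      List.getElem?_append_left (by rw [encGraph_length]; exact hi)]
  have hS := TM.Same.iter (M := M) (hlen ⊥ ⊥) (hlen ⊥ (oneEdge a b)) hsame
    (M.time (encPair (⊥ : SimpleGraph (Fin n)) ⊥)) (by rw [← sq]; exact hlt.le)
  obtain ⟨s', hs'⟩ := h2
  have h3 : M.HaltsWith (encPair (⊥ : SimpleGraph (Fin n)) (oneEdge a b))
      (M.time (encPair (⊥ : SimpleGraph (Fin n)) ⊥)) true := by
    unfold TM.HaltsWith at hc' ⊢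
    rw [← hS.1]
    exact hc'
  exact absurd (TM.haltsWith_unique h3 hs') (by decide)

end Vale.Agent.P310
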