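import Vale.Agent.P310.TransComp
import Vale.Agent.P312.LSLib

/-! # P310 T3: linear-space functions are computed by transducers in polynomial time -/

namespace Vale.Agent.P310

open P312 TransLS

namespace TransLS

/-- Is this the right end marker? -/
def isRightEnd : InSym Bool → Bool
  | .rightEnd => true
  | _ => false

/-- `n := |w|` with the scratch register `z`. -/
def lenC (n z : ℕ) : Cmd Bool :=
  .seq (.inc z) (.seq (.whileNZ z (.seq (.inMove .right)
    (.inCase isRightEnd (.dec z) (.inc n)))) (homeC z))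

theorem run_lenC (w : List Bool) (B n z : ℕ) (hnz : n ≠ z) (σ : ℕ → ℕ) (hn : σ n = 0)
    (hz : σ z = 0) (hB : w.length + 1 < B) :
    Run w B (lenC n z) ⟨σ, 0⟩ ⟨Function.update σ n w.length, 0⟩ := by
  refine Run.seq (Run.inc z _ (by simp only [hz]; omega)) ?_
  have key := run_while w B z (.seq (.inMove .right) (.inCase isRightEnd (.dec z) (.inc n)))
    (w.length + 1)
    (fun j => if j ≤ w.length then ⟨Function.update (Function.update σ z 1) n j, j⟩
      else ⟨Function.update σ n w.length, w.length + 1⟩)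
    (by
      intro j hj
      constructor
      · rw [if_pos (by omega)]
        simp [hnz.symm]
      · rw [if_pos (by omega)]
        refine Run.seq (Run.inMove .right _) ?_
        have hmv : moveInput w.length j .right = j + 1 := by simp only [moveInput]; omega
        simp only [hmv]
        by_cases hjl : j = w.length
        · subst hjl
          rw [if_neg (by omega)]
          refine Run.inTrue ?_ ((Run.dec z _).to ?_)
          · simp [inputAt, isRightEnd]
          · funext r
            simp only [Function.update_apply]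
            by_cases h1 : r = z
            · subst h1; simp [hnz.symm, hz]
            · by_cases h2 : r = n
              · subst h2; simp [hnz]
              · simp [h1, h2]
        · rw [if_pos (by omega)]
          refine Run.inFalse ?_ ((Run.inc n _ ?_).to ?_)
          · have hlt : j < w.length := by omega
            simp [inputAt, isRightEnd, List.getElem?_eq_getElem hlt]
          · simp only [Function.update_self]; omega
          · funext r
            simp only [Function.update_apply]
            by_cases h2 : r = n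
            · subst h2; simp
            · simp [h2])
    (by
      rw [if_neg (by omega)]
      simp [hnz.symm, hz])
  rw [if_pos (Nat.zero_le _), if_neg (Nat.not_succ_le_self _)] at key
  have e1 : (Function.update (Function.update σ z 1) n 0) = Function.update σ z (σ z + 1) := by
    funext r
    simp only [Function.update_apply]
    by_cases h2 : r = n
    · subst h2; simp [hnz, hn]
    · by_cases h1 : r = z
      · subst h1; simp [h2, hz]
      · simp [h1, h2]
  rw [e1] at key
  refine Run.seq key ?_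
  exact run_home w B z _ _ (by rw [Function.update_of_ne hnz.symm, hz]) (by omega)

/-- The registers `1, …, 8` of the program. -/
def st (k X n T L h b z : ℕ) : ℕ → ℕ := fun r =>
  if r = 1 then k else if r = 2 then X else if r = 3 then n else if r = 4 then T
  else if r = 5 then L else if r = 6 then h else if r = 7 then b else if r = 8 then z else 0

section
variable (k X n T L h b z v : ℕ)

theorem st_zero : (fun _ => 0 : ℕ → ℕ) = st 0 0 0 0 0 0 0 0 := by
  funext r; simp [st]

theorem st_ge {r : ℕ} (hr : 9 ≤ r) : st k X n T L h b z r = 0 := by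
  unfold st
  rw [if_neg (by omega), if_neg (by omega), if_neg (by omega), if_neg (by omega),
    if_neg (by omega), if_neg (by omega), if_neg (by omega), if_neg (by omega)]

theorem upd1 : Function.update (st k X n T L h b z) 1 v = st v X n T L h b z := by
  funext r; simp only [Function.update_apply, st]; split_ifs <;> rfl

theorem upd2 : Function.update (st k X n T L h b z) 2 v = st k v n T L h b z := by
  funext r; simp only [Function.update_apply, st]; split_ifs <;> first | rfl | omega

theorem upd3 : Function.update (st k X n T L h b z) 3 v = st k X v T L h b z := by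
  funext r; simp only [Function.update_apply, st]; split_ifs <;> first | rfl | omega

theorem upd4 : Function.update (st k X n T L h b z) 4 v = st k X n v L h b z := by
  funext r; simp only [Function.update_apply, st]; split_ifs <;> first | rfl | omega

theorem upd5 : Function.update (st k X n T L h b z) 5 v = st k X n T v h b z := by
  funext r; simp only [Function.update_apply, st]; split_ifs <;> first | rfl | omega

theorem upd6 : Function.update (st k X n T L h b z) 6 v = st k X n T L v b z := by
  funext r; simp only [Function.update_apply, st]; split_ifs <;> first | rfl | omega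

theorem upd7 : Function.update (st k X n T L h b z) 7 v = st k X n T L h v z := by
  funext r; simp only [Function.update_apply, st]; split_ifs <;> first | rfl | omega

theorem upd8 : Function.update (st k X n T L h b z) 8 v = st k X n T L h b v := by
  funext r; simp only [Function.update_apply, st]; split_ifs <;> first | rfl | omega

theorem st1 : st k X n T L h b z 1 = k := rfl
theorem st2 : st k X n T L h b z 2 = X := rfl
theorem st3 : st k X n T L h b z 3 = n := rfl
theorem st4 : st k X n T L h b z 4 = T := rfl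
theorem st5 : st k X n T L h b z 5 = L := rfl
theorem st6 : st k X n T L h b z 6 = h := rfl
theorem st7 : st k X n T L h b z 7 = b := rfl
theorem st8 : st k X n T L h b z 8 = z := rfl

end

/-- `LS` specialised to fixed registers. -/
theorem run_ls {m : ℕ} {f : List Bool → (Fin m → ℕ) → ℕ} (hf : LS f) : ∃ C K : ℕ,
    (∀ w v b, (∀ i, v i ≤ b) → f w v + 1 < (w.length + b + 2) ^ C) ∧
    ∀ (ins : Fin m → ℕ) (out : ℕ), (∀ i, ins i < 9) → out < 9 → (∀ i, ins i ≠ out) →
      ∃ cmd : Cmd Bool, cmd.RegsBelow (9 + K) ∧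
        ∀ (w : List Bool) (k X n T L h c z b B : ℕ), (∀ i, st k X n T L h c z (ins i) ≤ b) →
          st k X n T L h c z out = 0 → (w.length + b + 2) ^ C ≤ B →
          Run w B cmd ⟨st k X n T L h c z, 0⟩
            ⟨Function.update (st k X n T L h c z) out
              (f w (fun i => st k X n T L h c z (ins i))), 0⟩ := by
  obtain ⟨C, K, h1, h2⟩ := hf
  refine ⟨C, K, h1, ?_⟩
  intro ins out hins hout hne
  obtain ⟨cmd, hregs, hrun⟩ := h2 ins out 9 hins hout hne
  refine ⟨cmd, hregs, ?_⟩
  intro w k X n T L h c z b B hb ho hB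
  exact hrun w _ b B hb ho (fun r hr => st_ge _ _ _ _ _ _ _ _ hr) hB

/-- emit the truth value of register `7 ≠ 0`, clear it -/
def emitC : ECmd :=
  .seq (.lift (.inc 8)) (.seq (.loop 7 (.seq (.emit true) (.lift (.seq (clearC 7) (.dec 8)))))
    (.loop 8 (.seq (.emit false) (.lift (.dec 8)))))

theorem run_emitC (w : List Bool) (B k X n T L h b : ℕ) (hB : 1 < B) :
    ERun w B emitC ⟨st k X n T L h b 0, 0⟩ [decide (b ≠ 0)] ⟨st k X n T L h 0 0, 0⟩ := by
  have r1 : ERun w B (.lift (.inc 8)) ⟨st k X n T L h b 0, 0⟩ [] ⟨st k X n T L h b 1, 0⟩ := by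
    refine ERun.lift ((Run.inc 8 _ ?_).to ?_)
    · simp only [st8]; omega
    · simp only [st8, upd8]
  by_cases hb : b = 0
  · subst hb
    have r2 : ERun w B (.loop 7 (.seq (.emit true) (.lift (.seq (clearC 7) (.dec 8)))))
        ⟨st k X n T L h 0 1, 0⟩ [] ⟨st k X n T L h 0 1, 0⟩ := ERun.loopDone rfl
    have r3 : ERun w B (.loop 8 (.seq (.emit false) (.lift (.dec 8))))
        ⟨st k X n T L h 0 1, 0⟩ (([false] ++ []) ++ []) ⟨st k X n T L h 0 0, 0⟩ := by
      refine ERun.loopStep (s₂ := ⟨st k X n T L h 0 0, 0⟩) (by simp [st8])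
        (ERun.seq (ERun.emit _ _) (ERun.lift ((Run.dec 8 _).to ?_))) (ERun.loopDone rfl)
      simp only [st8, upd8]
    exact ERun.seq r1 (ERun.seq r2 r3)
  · have r2 : ERun w B (.loop 7 (.seq (.emit true) (.lift (.seq (clearC 7) (.dec 8)))))
        ⟨st k X n T L h b 1, 0⟩ (([true] ++ []) ++ []) ⟨st k X n T L h 0 0, 0⟩ := by
      refine ERun.loopStep (s₂ := ⟨st k X n T L h 0 0, 0⟩) (by simp only [st7]; exact hb)
        (ERun.seq (ERun.emit _ _) (ERun.lift (Run.seq (run_clear w B 7 _ 0)
          ((Run.dec 8 _).to ?_)))) (ERun.loopDone rfl)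
      simp only [st8, upd7, upd8]
    have r3 : ERun w B (.loop 8 (.seq (.emit false) (.lift (.dec 8))))
        ⟨st k X n T L h 0 0, 0⟩ [] ⟨st k X n T L h 0 0, 0⟩ := ERun.loopDone rfl
    have r4 := ERun.seq r1 (ERun.seq r2 r3)
    have e : decide (b ≠ 0) = true := by simp [hb]
    rw [e]
    exact r4

end TransLS

theorem exists_trans {f : List Bool → (Fin 3 → ℕ) → ℕ} {len : List Bool → (Fin 2 → ℕ) → ℕ}
    (hf : LS f) (hlen : LS len) : ∃ C : ℕ, ∀ k e : ℕ, ∃ (F : Trans) (c : ℕ), ∀ w : List Bool,
      ∃ s ≤ c * (w.length + 2) ^ (C * (e + 1)), F.Computes w s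
        ((List.range (len w ![k, (w.length + 2) ^ e])).map
          (fun h => decide (f w ![k, (w.length + 2) ^ e, h] ≠ 0))) := by
  have hmul : LS (fun (_ : List Bool) (v : Fin 2 → ℕ) => v 0 * v 1) := (LS.var 0).mul (LS.var 1)
  obtain ⟨Cm, Km, -, hm⟩ := run_ls hmul
  obtain ⟨Cl, Kl, hlb, hl⟩ := run_ls hlen
  obtain ⟨Cf, Kf, -, hff⟩ := run_ls hf
  obtain ⟨cm, hmr, hmrun⟩ := hm ![2, 3] 4 (by intro i; fin_cases i <;> simp) (by norm_num)
    (by intro i; fin_cases i <;> simp)
  obtain ⟨cl, hlr, hlrun⟩ := hl ![1, 2] 5 (by intro i; fin_cases i <;> simp) (by norm_num)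
    (by intro i; fin_cases i <;> simp)
  obtain ⟨cf, hfr, hfrun⟩ := hff ![1, 2, 6] 7 (by intro i; fin_cases i <;> simp) (by norm_num)
    (by intro i; fin_cases i <;> simp)
  clear hm hl hff
  set K : ℕ := 8 + Km + Kl + Kf with hK
  set E : ℕ := 2 * Cm + 2 * Cl + (2 * Cl + 2) * Cf + 2 with hE
  refine ⟨3 * (K + 1) * E + 1, ?_⟩
  intro k e
  -- the program
  let powC : Cmd Bool := seqUpTo (fun _ => .seq cm (.seq (clearC 2) (addC 4 2))) e
  let initC : Cmd Bool := .seq (lenC 3 8) (.seq (incN 3 2) (.seq (incN 1 k) (.seq (incN 2 1)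
    (.seq powC cl))))
  let body : ECmd := .seq (.lift cf) (.seq emitC (.lift (.seq (.inc 6) (.dec 5))))
  let prog : ECmd := .seq (.lift initC) (.loop 5 body)
  have hregs : prog.RegsBelow (K + 1) := by
    have h1 : cm.RegsBelow (K + 1) := hmr.mono (by omega)
    have h2 : cl.RegsBelow (K + 1) := hlr.mono (by omega)
    have h3 : cf.RegsBelow (K + 1) := hfr.mono (by omega)
    have h4 : ∀ r c : ℕ, r < K + 1 → (incN r c : Cmd Bool).RegsBelow (K + 1) :=
      fun r c hr => regs_seqUpTo (fun _ _ => hr)
    have h5 : powC.RegsBelow (K + 1) := by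
      refine regs_seqUpTo (fun _ _ => ⟨h1, ⟨?_, ?_⟩, ?_, ?_, ?_⟩) <;>
        first | omega | (simp only [Cmd.RegsBelow]; omega)
    refine ⟨⟨?_, h4 _ _ (by omega), h4 _ _ (by omega), h4 _ _ (by omega), h5, h2⟩, ?_, h3, ?_, ?_⟩
    · simp only [lenC, homeC, Cmd.RegsBelow, and_true, true_and]
      omega
    · omega
    · simp only [emitC, clearC, ECmd.RegsBelow, Cmd.RegsBelow, true_and]
      omega
    · simp only [ECmd.RegsBelow, Cmd.RegsBelow]
      omega
  obtain ⟨F, c, hF⟩ := trans_of_erun prog K hregs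
  refine ⟨F, c * (k + 4) ^ (3 * (K + 1) * E), ?_⟩
  intro w
  set n2 : ℕ := w.length + 2 with hn2
  set G : ℕ := (k + 4) * n2 ^ (e + 1) with hG
  set B : ℕ := G ^ E with hB
  have hpow1 : ∀ j ≤ e + 1, n2 ^ j ≤ n2 ^ (e + 1) := fun j hj =>
    Nat.pow_le_pow_right (by omega) hj
  have hP2 : 2 ≤ n2 ^ (e + 1) := by
    have := hpow1 1 (by omega)
    rw [pow_one] at this
    omega
  have hGk : k + 8 ≤ G := by
    rw [hG]
    nlinarith
  have hGP : 4 * n2 ^ (e + 1) ≤ G := by
    rw [hG]
    exact Nat.mul_le_mul_right _ (by omega)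
  have hGj : ∀ j ≤ e + 1, 4 * n2 ^ j ≤ G := fun j hj =>
    (Nat.mul_le_mul_left 4 (hpow1 j hj)).trans hGP
  have hGn : 4 * n2 ≤ G := by
    have := hGj 1 (by omega)
    rwa [pow_one] at this
  have hGE : ∀ C, C ≤ E → G ^ C ≤ B := fun C hC => Nat.pow_le_pow_right (by omega) hC
  have hG2 : G * G ≤ B := by
    have := hGE 2 (by omega)
    rwa [pow_two] at this
  have hGB : 8 * G ≤ B := (Nat.mul_le_mul_right G (by omega)).trans hG2
  have hb1 : w.length + G + 2 ≤ G ^ 2 := by
    rw [pow_two]
    nlinarith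
  have hb2 : ∀ C, (w.length + G + 2) ^ C ≤ G ^ (2 * C) := fun C => by
    rw [pow_mul]
    exact Nat.pow_le_pow_left hb1 C
  set X : ℕ := n2 ^ e with hX
  have hXG : 4 * X ≤ G := hGj e (by omega)
  set L0 : ℕ := len w ![k, X] with hL0
  have hL : L0 + 1 < G ^ (2 * Cl) := by
    refine lt_of_lt_of_le (hlb w ![k, X] G ?_) (hb2 Cl)
    intro i
    fin_cases i
    · simp; omega
    · simp; omega
  have hLB : L0 + 1 < B := lt_of_lt_of_le hL (hGE _ (by omega))
  -- the initialisation
  have rinit : Run w B initC ⟨fun _ => 0, 0⟩ ⟨st k X n2 0 L0 0 0 0, 0⟩ := by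
    have r1 : Run w B (lenC 3 8) ⟨fun _ => 0, 0⟩ ⟨st 0 0 w.length 0 0 0 0 0, 0⟩ := by
      have := run_lenC w B 3 8 (by norm_num) (fun _ => 0) rfl rfl (by omega)
      rw [st_zero, upd3] at this
      rw [st_zero]
      exact this
    have r2 : Run w B (incN 3 2) ⟨st 0 0 w.length 0 0 0 0 0, 0⟩ ⟨st 0 0 n2 0 0 0 0 0, 0⟩ := by
      have := run_incN w B 3 2 (st 0 0 w.length 0 0 0 0 0) 0 (by rw [st3]; omega)
      rw [st3, upd3] at this
      exact this
    have r3 : Run w B (incN 1 k) ⟨st 0 0 n2 0 0 0 0 0, 0⟩ ⟨st k 0 n2 0 0 0 0 0, 0⟩ := by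
      have := run_incN w B 1 k (st 0 0 n2 0 0 0 0 0) 0 (by rw [st1]; omega)
      rw [st1, upd1, Nat.zero_add] at this
      exact this
    have r4 : Run w B (incN 2 1) ⟨st k 0 n2 0 0 0 0 0, 0⟩ ⟨st k 1 n2 0 0 0 0 0, 0⟩ := by
      have := run_incN w B 2 1 (st k 0 n2 0 0 0 0 0) 0 (by rw [st2]; omega)
      rw [st2, upd2, Nat.zero_add] at this
      exact this
    have r5 : Run w B powC ⟨st k 1 n2 0 0 0 0 0, 0⟩ ⟨st k X n2 0 0 0 0 0, 0⟩ := by
      have := run_seqUpTo w B (fun _ => .seq cm (.seq (clearC 2) (addC 4 2))) e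
        (fun j => ⟨st k (n2 ^ j) n2 0 0 0 0 0, 0⟩) (by
          intro j hj
          have hj4 := hGj j (by omega)
          have hj5 := hGj (j + 1) (by omega)
          have m1 := hmrun w k (n2 ^ j) n2 0 0 0 0 0 G B (by
            intro i
            fin_cases i
            · simp [st]; omega
            · simp [st]; omega) rfl ((hb2 Cm).trans (hGE _ (by omega)))
          rw [upd4] at m1
          have e1 : (st k (n2 ^ j) n2 0 0 0 0 0 (![2, 3] 0)) *
              (st k (n2 ^ j) n2 0 0 0 0 0 (![2, 3] 1)) = n2 ^ (j + 1) := by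
            simp only [Matrix.cons_val_zero, Matrix.cons_val_one, st2, st3]
            rw [pow_succ]
          rw [e1] at m1
          refine Run.seq m1 (Run.seq (run_clear w B 2 _ 0) ?_)
          rw [upd2]
          have m2 := run_add w B 4 2 (by norm_num) (st k 0 n2 (n2 ^ (j + 1)) 0 0 0 0) 0
            (by rw [st2, st4]; omega)
          rw [st2, st4, upd4, upd2, Nat.zero_add] at m2
          exact m2)
      simp only [pow_zero] at this
      exact this
    have r6 : Run w B cl ⟨st k X n2 0 0 0 0 0, 0⟩ ⟨st k X n2 0 L0 0 0 0, 0⟩ := by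
      have := hlrun w k X n2 0 0 0 0 0 G B (by
        intro i
        fin_cases i
        · simp [st]; omega
        · simp [st]; omega) rfl ((hb2 Cl).trans (hGE _ (by omega)))
      rw [upd5] at this
      have e1 : (fun i => st k X n2 0 0 0 0 0 (![1, 2] i)) = ![k, X] := by
        funext i
        fin_cases i <;> rfl
      rw [e1] at this
      exact this
    exact Run.seq r1 (Run.seq r2 (Run.seq r3 (Run.seq r4 (Run.seq r5 r6))))
  -- the loop
  have hb3 : (w.length + G ^ (2 * Cl + 1) + 2) ^ Cf ≤ B := by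
    have h1 : 1 ≤ G ^ (2 * Cl) := Nat.one_le_pow _ _ (by omega)
    have h2 : w.length + G ^ (2 * Cl + 1) + 2 ≤ G ^ (2 * Cl + 2) := by
      have e1 : G ^ (2 * Cl + 1) = G ^ (2 * Cl) * G := pow_succ _ _
      have e2 : G ^ (2 * Cl + 2) = G ^ (2 * Cl) * G * G := by rw [pow_add]; ring
      rw [e1, e2]
      have h3 : G ≤ G ^ (2 * Cl) * G := Nat.le_mul_of_pos_left _ (by omega)
      nlinarith
    calc (w.length + G ^ (2 * Cl + 1) + 2) ^ Cf ≤ (G ^ (2 * Cl + 2)) ^ Cf :=
          Nat.pow_le_pow_left h2 _
      _ = G ^ ((2 * Cl + 2) * Cf) := by rw [← pow_mul]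
      _ ≤ B := hGE _ (by omega)
  have hG1 : G ≤ G ^ (2 * Cl + 1) := Nat.le_self_pow (by omega) G
  have hL1 : G ^ (2 * Cl) ≤ G ^ (2 * Cl + 1) := Nat.pow_le_pow_right (by omega) (by omega)
  have rloop : ∀ m h, h + m = L0 → ERun w B (.loop 5 body) ⟨st k X n2 0 m h 0 0, 0⟩
      ((List.range' h m).map (fun h => decide (f w ![k, X, h] ≠ 0)))
      ⟨st k X n2 0 0 L0 0 0, 0⟩ := by
    intro m
    induction m with
    | zero =>
      intro h hh
      rw [Nat.add_zero] at hh
      rw [hh]
      exact ERun.loopDone rfl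
    | succ m ih =>
      intro h hh
      rw [List.range'_succ, List.map_cons, ← List.singleton_append]
      refine ERun.loopStep (s₂ := ⟨st k X n2 0 m (h + 1) 0 0, 0⟩) (by simp only [st5]; omega) ?_
        (ih (h + 1) (by omega))
      have b1 := hfrun w k X n2 0 (m + 1) h 0 0 (G ^ (2 * Cl + 1)) B (by
        intro i
        fin_cases i
        · simp [st]; omega
        · simp [st]; omega
        · simp [st]; omega) rfl hb3
      rw [upd7] at b1
      have e1 : (fun i => st k X n2 0 (m + 1) h 0 0 (![1, 2, 6] i)) = ![k, X, h] := by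
        funext i
        fin_cases i <;> rfl
      rw [e1] at b1
      have b2 := run_emitC w B k X n2 0 (m + 1) h (f w ![k, X, h]) (by omega)
      have b3 : Run w B (.seq (.inc 6) (.dec 5)) ⟨st k X n2 0 (m + 1) h 0 0, 0⟩
          ⟨st k X n2 0 m (h + 1) 0 0, 0⟩ := by
        refine Run.seq (Run.inc 6 _ (by simp only [st6]; omega)) ((Run.dec 5 _).to ?_)
        simp only [st6, upd6, st5, upd5]
        rfl
      exact ERun.seq (ERun.lift b1) (ERun.seq b2 (ERun.lift b3))
  have hrun : ERun w B prog ⟨fun _ => 0, 0⟩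
      ((List.range L0).map (fun h => decide (f w ![k, X, h] ≠ 0)))
      ⟨st k X n2 0 0 L0 0 0, 0⟩ := by
    have := ERun.seq (ERun.lift rinit) (rloop L0 0 (by omega))
    rw [List.nil_append, ← List.range_eq_range'] at this
    exact this
  obtain ⟨s, hs, hcomp⟩ := hF w B _ _ (by omega) hrun
  refine ⟨s, hs.trans ?_, hcomp⟩
  have e1 : B ^ (3 * (K + 1)) = (k + 4) ^ (3 * (K + 1) * E) * n2 ^ ((e + 1) * (3 * (K + 1) * E)) := by
    generalize 3 * (K + 1) = a
    rw [hB, hG, ← pow_mul, mul_pow, ← pow_mul, Nat.mul_comm E a]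
  rw [e1]
  have e2 : n2 * n2 ^ ((e + 1) * (3 * (K + 1) * E)) ≤ n2 ^ ((3 * (K + 1) * E + 1) * (e + 1)) := by
    rw [← pow_succ']
    apply Nat.pow_le_pow_right (by omega)
    nlinarith
  have e3 : ∀ a b p q : ℕ, a * (b * (p * q)) = a * p * (b * q) := fun a b p q => by ring
  rw [e3]
  exact Nat.mul_le_mul_left _ e2

end Vale.Agent.P310
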