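import Vale.Agent.P310.Comb
import Vale.Agent.P310.NetCA
import Vale.Agent.P310.Code
import Vale.Agent.P310.NumIso
import Vale.Agent.P310.MultiOne
import Vale.Agent.P310.TransLS
import Vale.Agent.P310.Small
import Vale.Agent.P310.Compose
import Vale.Agent.P310.Pad
import Vale.Agent.P310.OutLS

/-!
# P310, P12: the diagonal argument
-/

namespace Vale.Agent.P310

open P312 Finset Asymptotics Filter

/-! ### Turing machines: halting facts -/

namespace TM

variable {α : Type} (M : TM α)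

theorem step_of_halt {c : M.Cfg} {a : Bool} (h : M.answer c.q = some a) : M.step c = c := by
  unfold step
  rw [h]

theorem HaltsWith.mono {M : TM α} {w : List α} {s s' : ℕ} {a : Bool} (h : M.HaltsWith w s a)
    (hs : s ≤ s') : M.HaltsWith w s' a := by
  obtain ⟨d, rfl⟩ := Nat.exists_eq_add_of_le hs
  induction d with
  | zero => exact h
  | succ d ih =>
    have h1 := ih (by omega)
    unfold HaltsWith at h1 ⊢
    rw [← Nat.add_assoc, Function.iterate_succ_apply', M.step_of_halt h1]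
    exact h1

theorem HaltsWith.unique {M : TM α} {w : List α} {s s' : ℕ} {a a' : Bool}
    (h : M.HaltsWith w s a) (h' : M.HaltsWith w s' a') : a = a' := by
  have h1 := h.mono (le_max_left s s')
  have h2 := h'.mono (le_max_right s s')
  unfold HaltsWith at h1 h2
  rw [h1] at h2
  exact Option.some.inj h2

theorem haltsWith_time {M : TM α} {w : List α} {s : ℕ} {a : Bool} (h : M.HaltsWith w s a) :
    M.HaltsWith w (M.time w) a := by
  have hne : {s | ∃ a, M.HaltsWith w s a}.Nonempty := ⟨s, a, h⟩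
  obtain ⟨a', h'⟩ := Nat.sInf_mem hne
  have := h.unique h'
  subst this
  exact h'

end TM

theorem TM.time_le_worst (M : TM Bool) {n : ℕ} (G H : SimpleGraph (Fin n)) :
    M.time (encPair G H) ≤ M.worstTime n := by
  unfold TM.worstTime
  exact le_ciSup (f := fun p : SimpleGraph (Fin n) × SimpleGraph (Fin n) =>
    M.time (encPair p.1 p.2)) (Set.finite_range _).bddAbove (G, H)

/-! ### The output word -/

theorem encGraph_eq {n : ℕ} (G : SimpleGraph (Fin n)) (A : ℕ → ℕ → Prop) [∀ h, Decidable (A (h / n) (h % n))]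
    (hA : ∀ v v' : Fin n, G.Adj v v' ↔ A v v') :
    encGraph G = (List.range (n * n)).map (fun h => decide (A (h / n) (h % n))) := by
  classical
  have key : ∀ m ≤ n, (List.range (m * n)).map (fun h => decide (A (h / n) (h % n))) =
      (List.range m).flatMap (fun i => (List.range n).map (fun j => decide (A i j))) := by
    intro m
    induction m with
    | zero => intro _; simp
    | succ m ih =>
      intro hm
      rw [Nat.succ_mul, List.range_add, List.map_append, ih (by omega), List.range_succ,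
        List.flatMap_append, List.map_map]
      congr 1
      simp only [List.flatMap_cons, List.flatMap_nil, List.append_nil]
      apply List.map_congr_left
      intro j hj
      have hj' := List.mem_range.mp hj
      have h1 : (m * n + j) / n = m := by
        rw [Nat.add_div_of_dvd_right (Dvd.intro_left m rfl), Nat.mul_div_cancel _ (by omega),
          Nat.div_eq_of_lt hj']
        rfl
      have h2 : (m * n + j) % n = j := by
        rw [Nat.mul_comm, Nat.mul_add_mod, Nat.mod_eq_of_lt hj']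
      simp only [Function.comp]
      congr 1
      rw [h1, h2]
  rw [key n (le_refl _)]
  unfold encGraph
  rw [← List.map_coe_finRange_eq_range, List.flatMap_map]
  congr 1
  funext i
  rw [List.map_map]
  apply List.map_congr_left
  intro j _
  simp only [Function.comp]
  congr 1
  exact propext (hA i j)

theorem outBit_ne_zero {w : List Bool} {k X : ℕ} (h1 : qq w ^ k ≤ X) (h2 : 2 ^ (k + 7) ≤ X)
    (h : ℕ) : outBit w k X h ≠ 0 ↔ outP w k (numX w k) (2 ^ (k + 7)) (padN w X) h := by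
  unfold outBit numX
  rw [min_eq_left h1, min_eq_left h2]
  split_ifs with h3
  · simp [h3]
  · simp [h3]

theorem outLen_eq {w : List Bool} {k X : ℕ} (h1 : qq w ^ k ≤ X) (h2 : 2 ^ (k + 7) ≤ X) :
    outLen w k X = 2 * ((numV w k + padN w X) * (numV w k + padN w X)) := by
  unfold outLen numV numX
  rw [min_eq_left h1, min_eq_left h2]

theorem encPair_eq {w : List Bool} {k X : ℕ} (h1 : qq w ^ k ≤ X) (h2 : 2 ^ (k + 7) ≤ X)
    (G₀ G₁ : SimpleGraph (Fin (numV w k)))
    (hG₀ : ∀ v v', G₀.Adj v v' ↔ adjN w k (numX w k) (2 ^ (k + 7)) 0 v v')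
    (hG₁ : ∀ v v', G₁.Adj v v' ↔ adjN w k (numX w k) (2 ^ (k + 7)) 1 v v') :
    (List.range (outLen w k X)).map (fun h => decide (outBit w k X h ≠ 0)) =
      encPair (padGraph G₀ (padN w X)) (padGraph G₁ (padN w X)) := by
  classical
  rw [outLen_eq h1 h2, two_mul, List.range_add, List.map_append, List.map_map]
  unfold encPair
  have hn : numX w k * 2 ^ (k + 7) * (numX w k + 3) = numV w k := rfl
  congr 1
  · rw [encGraph_eq (padGraph G₀ (padN w X)) (fun v v' => v < numV w k ∧ v' < numV w k ∧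
      adjN w k (numX w k) (2 ^ (k + 7)) 0 v v') (by
        intro v v'
        constructor
        · rintro ⟨a, b, h⟩
          exact ⟨a, b, (hG₀ _ _).mp h⟩
        · rintro ⟨a, b, h⟩
          exact ⟨a, b, (hG₀ _ _).mpr h⟩)]
    apply List.map_congr_left
    intro h hh
    have hh' := List.mem_range.mp hh
    congr 1
    apply propext
    rw [outBit_ne_zero h1 h2]
    unfold outP
    dsimp only
    rw [hn]
    constructor
    · rintro (h | h)
      · exact h.2
      · omega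
    · intro h
      exact Or.inl ⟨hh', h⟩
  · rw [encGraph_eq (padGraph G₁ (padN w X)) (fun v v' => v < numV w k ∧ v' < numV w k ∧
      adjN w k (numX w k) (2 ^ (k + 7)) 1 v v') (by
        intro v v'
        constructor
        · rintro ⟨a, b, h⟩
          exact ⟨a, b, (hG₁ _ _).mp h⟩
        · rintro ⟨a, b, h⟩
          exact ⟨a, b, (hG₁ _ _).mpr h⟩)]
    apply List.map_congr_left
    intro h hh
    have hh' := List.mem_range.mp hh
    simp only [Function.comp]
    congr 1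
    apply propext
    rw [outBit_ne_zero h1 h2]
    unfold outP
    dsimp only
    rw [hn, Nat.add_sub_cancel_left]
    constructor
    · rintro (h | h)
      · omega
      · exact h.2
    · intro h
      exact Or.inr ⟨by omega, h⟩

/-! ### Size bounds -/

theorem numX_le {w : List Bool} {k : ℕ} (h : 12 * (k * k + 1) * (7 * (k + 3)) * k ≤ qOf w) :
    numX w k ≤ qOf w ^ (2 * k + 5) := by
  unfold numX numC pB ndB qq
  calc 12 * (qOf w * qOf w * qOf w * qOf w) * (k * k + 1) * (7 * (k + 3)) * k *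
        (qOf w * qOf w) ^ k
      = (12 * (k * k + 1) * (7 * (k + 3)) * k) * (qOf w ^ 4 * (qOf w * qOf w) ^ k) := by ring
    _ ≤ qOf w * (qOf w ^ 4 * (qOf w * qOf w) ^ k) := Nat.mul_le_mul_right _ h
    _ = qOf w ^ (2 * k + 5) := by
        rw [← pow_two, ← pow_mul]
        ring

theorem numV_le {w : List Bool} {k : ℕ} (h : 12 * (k * k + 1) * (7 * (k + 3)) * k ≤ qOf w)
    (h2 : 2 ^ (k + 7) ≤ qOf w) : numV w k ≤ qOf w ^ (4 * k + 12) := by
  have h3 := numX_le h
  have hq : 4 ≤ qOf w := le_trans (by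
    calc 4 = 2 ^ 2 := rfl
      _ ≤ 2 ^ (k + 7) := Nat.pow_le_pow_right (by omega) (by omega)) h2
  have h4 : numX w k + 3 ≤ qOf w ^ (2 * k + 6) := by
    have h5 : 1 ≤ qOf w ^ (2 * k + 5) := Nat.one_le_pow _ _ (by omega)
    calc numX w k + 3 ≤ 4 * qOf w ^ (2 * k + 5) := by omega
      _ ≤ qOf w * qOf w ^ (2 * k + 5) := Nat.mul_le_mul_right _ hq
      _ = qOf w ^ (2 * k + 6) := by ring
  unfold numV
  calc numX w k * 2 ^ (k + 7) * (numX w k + 3)
      ≤ qOf w ^ (2 * k + 5) * qOf w * qOf w ^ (2 * k + 6) := by gcongr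
    _ = qOf w ^ (4 * k + 12) := by ring


theorem qOf_le_numV {w : List Bool} {k : ℕ} (hk : 1 ≤ k) : qOf w ≤ numV w k := by
  have hq : 1 ≤ qOf w := qOf_pos w
  have hp : 1 ≤ pB k := pB_pos k
  have hd : 1 ≤ ndB k := by unfold ndB; omega
  have hqq : 1 ≤ qq w ^ k := Nat.one_le_pow _ _ (by unfold qq; positivity)
  have h1 : qOf w ≤ numX w k := by
    unfold numX numC
    calc qOf w = 1 * (qOf w * 1 * 1 * 1) * 1 * 1 * 1 * 1 := by ring
      _ ≤ 12 * (qOf w * qOf w * qOf w * qOf w) * pB k * ndB k * k * qq w ^ k := by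
        gcongr
        omega
  have h2 : 1 ≤ 2 ^ (k + 7) := Nat.one_le_two_pow
  unfold numV
  calc qOf w ≤ numX w k := h1
    _ = numX w k * 1 * 1 := by ring
    _ ≤ numX w k * 2 ^ (k + 7) * (numX w k + 3) := by gcongr; omega

theorem numV_mono {w w' : List Bool} (h : w.length ≤ w'.length) (k : ℕ) :
    numV w k ≤ numV w' k := by
  have hq : qOf w ≤ qOf w' := by unfold qOf; omega
  have h1 : numX w k ≤ numX w' k := by
    unfold numX numC qq
    gcongr
  unfold numV
  gcongr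

/-- The number of vertices as a function of the length. -/
def numVl (k N : ℕ) : ℕ := numV (List.replicate N false) k

theorem numV_eq (w : List Bool) (k : ℕ) : numV w k = numVl k w.length :=
  le_antisymm (numV_mono (by simp) k) (numV_mono (by simp) k)

theorem numVl_mono (k : ℕ) : Monotone (numVl k) := fun a b h => numV_mono (by simpa using h) k

theorem le_numVl {k N : ℕ} (hk : 1 ≤ k) : N ≤ numVl k N := by
  have := qOf_le_numV (w := List.replicate N false) hk
  unfold numVl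
  refine le_trans ?_ this
  unfold qOf
  simp

theorem exists_len {k n N₁ : ℕ} (hk : 1 ≤ k) (hn : numVl k N₁ ≤ n) :
    ∃ N ≥ N₁, numVl k N ≤ n ∧ n < numVl k (N + 1) := by
  have hex : ∃ N, n < numVl k N := ⟨n + 1, lt_of_lt_of_le (Nat.lt_succ_self n) (le_numVl hk)⟩
  classical
  have h1 := Nat.find_spec hex
  have h2 : N₁ < Nat.find hex := by
    by_contra h
    have := numVl_mono k (not_lt.mp h)
    omega
  refine ⟨Nat.find hex - 1, by omega, ?_, ?_⟩
  · by_contra h
    exact Nat.find_min hex (m := Nat.find hex - 1) (by omega) (not_le.mp h)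
  · have : Nat.find hex - 1 + 1 = Nat.find hex := by omega
    rw [this]
    exact h1

/-! ### Padding -/

theorem sum_bits (L z : ℕ) (hz : z < 2 ^ L) : ∑ i ∈ range L, z / 2 ^ i % 2 * 2 ^ i = z := by
  induction L generalizing z with
  | zero =>
    simp at hz
    simp [hz]
  | succ L ih =>
    rw [Finset.sum_range_succ']
    have h1 : z / 2 < 2 ^ L := by
      rw [Nat.div_lt_iff_lt_mul (by omega)]
      rw [pow_succ] at hz
      exact hz
    have h2 : ∑ i ∈ range L, z / 2 ^ (i + 1) % 2 * 2 ^ (i + 1) = 2 * (z / 2) := by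
      rw [← ih (z / 2) h1, Finset.mul_sum]
      apply Finset.sum_congr rfl
      intro i _
      rw [pow_succ', ← Nat.div_div_eq_div_mul]
      ring_nf
    rw [h2]
    simp
    omega

theorem exists_pad (L z X : ℕ) (hz : z ≤ X) (hX : X < 2 ^ L) : ∃ pad : List Bool,
    pad.length = L ∧ ∀ pre : List Bool, padN (pre ++ pad) X = z := by
  refine ⟨(List.range L).map (fun j => decide (z / 2 ^ (L - 1 - j) % 2 = 1)), by simp, ?_⟩
  intro pre
  unfold padN
  have hlen : (pre ++ (List.range L).map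
      (fun j => decide (z / 2 ^ (L - 1 - j) % 2 = 1))).length = pre.length + L := by simp
  rw [hlen]
  rw [← Finset.sum_subset (s₁ := range L) (fun i hi => by
    rw [Finset.mem_range] at hi ⊢; omega)]
  · refine Eq.trans ?_ (sum_bits L z (lt_of_le_of_lt hz hX))
    apply Finset.sum_congr rfl
    intro i hi
    have hi' := Finset.mem_range.mp hi
    by_cases hc : 2 ^ i ≤ X
    · rw [min_eq_left (by omega), if_pos hc]
      congr 1
      unfold bitAt
      rw [List.getElem?_append_right (by omega), List.getElem?_map]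
      have e1 : pre.length + L - 1 - i - pre.length = L - 1 - i := by omega
      rw [e1, List.getElem?_range (by omega)]
      simp only [Option.map_some, Option.some.injEq, decide_eq_true_eq]
      have e2 : L - 1 - (L - 1 - i) = i := by omega
      rw [e2]
      split_ifs with h
      · exact h.symm
      · omega
    · have h3 : z / 2 ^ i = 0 := Nat.div_eq_of_lt (by omega)
      rw [if_neg (by
        rw [not_le]
        exact lt_min (not_le.mp hc) (Nat.lt_succ_self X)), h3]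
      simp
  · intro i _ hi
    rw [Finset.mem_range, not_lt] at hi
    have : 2 ^ L ≤ 2 ^ i := Nat.pow_le_pow_right (by omega) hi
    rw [if_neg]
    rw [not_le]
    exact lt_min (by omega) (Nat.lt_succ_self X)

/-! ### The combinatorial main theorem for the numeric graphs -/

theorem exists_graphs {k : ℕ} (hk : 2 ≤ k) (w : List Bool) {X : ℕ} (h1 : qq w ^ k ≤ X)
    (h2 : 2 ^ (k + 7) ≤ X) :
    ∃ G₀ G₁ : SimpleGraph (Fin (numV w k + padN w X)),
      (WLEquiv k G₀ G₁ ↔ ¬ (netOf w hk).DerGoal) ∧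
      (List.range (outLen w k X)).map (fun h => decide (outBit w k X h ≠ 0)) =
        encPair G₀ G₁ := by
  classical
  obtain ⟨ix, hix, M, hM, G₀, G₁, ⟨e₀⟩, ⟨e₁⟩, hG₀, hG₁⟩ := exists_numGraphs hk w
  refine ⟨padGraph G₀ _, padGraph G₁ _, ?_, encPair_eq h1 h2 G₀ G₁ hG₀ hG₁⟩
  let _ : Fintype ((netOf w hk).sys (k + 2) ix hix M hM).X :=
    (inferInstance : Fintype ((netOf w hk).C × (Fin 7 × Fin (k + 2 + 1)) × Fin k ×
      (Fin k → (netOf w hk).Λ)))
  let _ : DecidableEq ((netOf w hk).sys (k + 2) ix hix M hM).X := Classical.decEq _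
  rw [wlEquiv_pad hk, ← (netOf w hk).wlEquiv_iff hk (le_refl _) ix hix M hM]
  exact (WLEquiv.congr e₀ e₁).symm

/-! ### Large `k` -/

theorem exp_conds (C k : ℕ) (hk : 20 * C + 200 ≤ k) :
    C * (4 * k + 13 + 1) ≤ k * (k - 1) / 4 - 1 ∧ 8 * k + 27 ≤ k * (k - 1) / 4 - 1 ∧
      k * (k - 1) ≤ 4 * (k * (k - 1) / 4 - 1) + 7 ∧
      2 * (k * (k - 1) / 4 - 1) + 1 ≤ k * (k - 1) / 2 - 1 := by
  have h6 : k * (k - 1) = k * k - k := by rw [Nat.mul_sub, Nat.mul_one]
  have hkk : (20 * C + 200) * k ≤ k * k := Nat.mul_le_mul_right _ hk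
  have e1 : (20 * C + 200) * k = 20 * (C * k) + 200 * k := by ring
  have hCk : C ≤ k := by omega
  rw [h6]
  refine ⟨?_, ?_, ?_, ?_⟩
  · have : C * (4 * k + 13 + 1) = 4 * (C * k) + 14 * C := by ring
    omega
  · omega
  · omega
  · omega

theorem real_cond {k a : ℕ} {c : ℝ} (hk : 2 ≤ k) (hc : 1 / (2 * (1 / 16 - c)) ≤ k)
    (hc' : c < 1 / 16) (h : k * (k - 1) ≤ 4 * a + 7) :
    ((4 * k + 13 : ℕ) : ℝ) * (c * k) ≤ a := by
  have h0 : 0 < 1 / 16 - c := by linarith
  have h1 : 1 ≤ k * (2 * (1 / 16 - c)) := by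
    rwa [div_le_iff₀ (by positivity)] at hc
  have h2 : (k : ℝ) * (k - 1) ≤ 4 * a + 7 := by
    have : ((k * (k - 1) : ℕ) : ℝ) ≤ ((4 * a + 7 : ℕ) : ℝ) := by exact_mod_cast h
    rw [Nat.cast_mul, Nat.cast_sub (by omega)] at this
    push_cast at this
    exact this
  have h3 : (2 : ℝ) ≤ k := by exact_mod_cast hk
  push_cast
  nlinarith

theorem time_arith {s₁ T len N q a b c K' C1 C2 s s' : ℕ} (hq : q = N + 2)
    (h1 : s₁ ≤ c * q ^ a) (h2 : T ≤ K' * q ^ a) (h3 : len ≤ q ^ a) (ha : 1 ≤ a)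
    (hb : 2 * a + 1 ≤ b) (hs : s ≤ C2 * (s₁ + T + len + N + 1))
    (hs' : s' ≤ C1 * (s + N + 1) ^ 2) (hqL : 4 * (C1 * (C2 * (c + K' + 2) + 1) ^ 2) + 4 ≤ q) :
    4 * (s' + N + 1) ≤ q ^ b := by
  have hq1 : 1 ≤ q := by omega
  have hqa : q ≤ q ^ a := by
    calc q = q ^ 1 := (pow_one q).symm
      _ ≤ q ^ a := Nat.pow_le_pow_right hq1 ha
  have hs2 : s + N + 1 ≤ (C2 * (c + K' + 2) + 1) * q ^ a := by
    calc s + N + 1 ≤ C2 * (s₁ + T + len + N + 1) + q := by omega
      _ ≤ C2 * (c * q ^ a + K' * q ^ a + q ^ a + q ^ a) + q ^ a := by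
          have : s₁ + T + len + N + 1 ≤ c * q ^ a + K' * q ^ a + q ^ a + q ^ a := by omega
          have := Nat.mul_le_mul_left C2 this
          omega
      _ = (C2 * (c + K' + 2) + 1) * q ^ a := by ring
  generalize C2 * (c + K' + 2) + 1 = L at *
  have hqa2 : q ≤ q ^ (2 * a) := by
    calc q = q ^ 1 := (pow_one q).symm
      _ ≤ q ^ (2 * a) := Nat.pow_le_pow_right hq1 (by omega)
  have h5 : C1 * (s + N + 1) ^ 2 ≤ C1 * (L * q ^ a) ^ 2 :=
    Nat.mul_le_mul_left _ (Nat.pow_le_pow_left hs2 2)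
  calc 4 * (s' + N + 1) ≤ 4 * (C1 * (L * q ^ a) ^ 2) + 4 * q ^ (2 * a) := by omega
    _ = (4 * (C1 * L ^ 2) + 4) * q ^ (2 * a) := by ring
    _ ≤ q * q ^ (2 * a) := Nat.mul_le_mul_right _ hqL
    _ = q ^ (2 * a + 1) := by ring
    _ ≤ q ^ b := Nat.pow_le_pow_right hq1 hb

theorem rpow_arith {n q k a W : ℕ} {E : ℝ} (hq : 1 ≤ q) (hn : n ≤ q ^ (4 * k + 13))
    (hE : 0 ≤ E) (ha : ((4 * k + 13 : ℕ) : ℝ) * E ≤ a) (hW : (W : ℝ) < (n : ℝ) ^ E) :
    W ≤ q ^ a := by
  have hq1' : (1 : ℝ) ≤ q := by exact_mod_cast hq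
  have h : (W : ℝ) ≤ (q : ℝ) ^ a := by
    calc (W : ℝ) ≤ (n : ℝ) ^ E := hW.le
      _ ≤ ((q : ℝ) ^ (4 * k + 13)) ^ E := by
          apply Real.rpow_le_rpow (by positivity) _ hE
          exact_mod_cast hn
      _ = (q : ℝ) ^ (((4 * k + 13 : ℕ) : ℝ) * E) := by
          rw [← Real.rpow_natCast, ← Real.rpow_mul (by positivity)]
      _ ≤ (q : ℝ) ^ (a : ℝ) := Real.rpow_le_rpow_of_exponent_le hq1' ha
      _ = (q : ℝ) ^ a := Real.rpow_natCast _ _
  exact_mod_cast h

theorem exists_large (e P : ℕ) : ∃ N₁, ∀ N ≥ N₁, P ≤ N ∧ (N + 2) ^ e < 2 ^ (N - P) := by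
  have h1 : (fun n : ℕ => (n : ℝ) ^ e) =o[atTop] fun n : ℕ => (2 : ℝ) ^ n :=
    isLittleO_pow_const_const_pow_of_one_lt e (by norm_num)
  have h2 := h1.bound (c := 1 / 2 ^ (P + 3)) (by positivity)
  obtain ⟨n₁, hn₁⟩ := eventually_atTop.mp h2
  refine ⟨n₁ + P, fun N hN => ⟨by omega, ?_⟩⟩
  have h3 := hn₁ (N + 2) (by omega)
  rw [Real.norm_of_nonneg (by positivity), Real.norm_of_nonneg (by positivity)] at h3
  have h4 : ((N + 2 : ℕ) : ℝ) ^ e < 2 ^ (N - P) := by
    have h5 : (2 : ℝ) ^ (N + 2) = 2 ^ (N - P) * 2 ^ (P + 2) := by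
      rw [← pow_add]
      congr 1
      omega
    rw [h5] at h3
    have h6 : (1 / 2 ^ (P + 3) * (2 ^ (N - P) * 2 ^ (P + 2)) : ℝ) = 2 ^ (N - P) / 2 := by
      rw [pow_succ (2 : ℝ) (P + 2)]
      field_simp
    rw [h6] at h3
    have h7 : (0 : ℝ) < 2 ^ (N - P) := by positivity
    linarith
  exact_mod_cast h4

theorem next_le {k q : ℕ} (hq : 2 ^ (4 * k + 12) ≤ q) :
    (q + 1) ^ (4 * k + 12) ≤ q ^ (4 * k + 13) := by
  have h1 : 1 ≤ q := le_trans Nat.one_le_two_pow hq
  calc (q + 1) ^ (4 * k + 12) ≤ (2 * q) ^ (4 * k + 12) := Nat.pow_le_pow_left (by omega) _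
    _ = 2 ^ (4 * k + 12) * q ^ (4 * k + 12) := by rw [mul_pow]
    _ ≤ q * q ^ (4 * k + 12) := Nat.mul_le_mul_right _ hq
    _ = q ^ (4 * k + 13) := by ring

/-- The diagonal contradiction. -/
theorem diag {k : ℕ} (hk : 3 ≤ k) {M : TM Bool} (hM : M.DecidesWL k) {M1 : OneTapeTM Bool}
    {w : List Bool} (hN : 4 ≤ w.length)
    (hacc : ∀ s, M1.answer (M1.step^[s] (M1.init w)).q = some true →
      ∃ t ≤ s, ∃ (p : ℤ) (x : ℕ), |p| ≤ t ∧ CAder w t p x ∧ accOK w x)
    (hrej : ∀ s, M1.answer (M1.step^[s] (M1.init w)).q = some false →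
      ∀ (t : ℕ) (p : ℤ) (x : ℕ), CAder w t p x → ¬ accOK w x)
    {n : ℕ} (G₀ G₁ : SimpleGraph (Fin n))
    (hG : WLEquiv k G₀ G₁ ↔ ¬ (netOf w (show 2 ≤ k by omega)).DerGoal)
    (hsim : ∀ b, M.HaltsWith (encPair G₀ G₁) (M.time (encPair G₀ G₁)) b →
      ∃ s', 4 * (s' + w.length + 1) ≤ (w.length + 2) ^ (k * (k - 1) / 2 - 1) ∧
        M1.answer (M1.step^[s'] (M1.init w)).q = some b) : False := by
  by_cases hwl : WLEquiv k G₀ G₁
  · obtain ⟨s, hs⟩ := (hM _ G₀ G₁).1 hwl
    obtain ⟨s', hhor, hM1s⟩ := hsim true (TM.haltsWith_time hs)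
    obtain ⟨t, ht, p, x, hp, hca, hx⟩ := hacc s' hM1s
    refine hG.mp hwl (derGoal_of_acc hk w hN hca hx hp (le_trans ?_ hhor))
    omega
  · obtain ⟨s, hs⟩ := (hM _ G₀ G₁).2 hwl
    obtain ⟨s', hhor, hM1s⟩ := hsim false (TM.haltsWith_time hs)
    have hD : (netOf w (show 2 ≤ k by omega)).DerGoal := by
      by_contra h
      exact hwl (hG.mpr h)
    obtain ⟨t, p, x, hca, hx⟩ := acc_of_derGoal hk w hN hD
    exact hrej s' hM1s t p x hca hx

/-- The choice of the word for given `n`. -/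
theorem exists_word {k : ℕ} (hk : 1 ≤ k) (pre : List Bool) (L : ℕ) : ∃ n₁, ∀ n ≥ n₁,
    ∃ pad : List Bool, numV (pre ++ pad) k + padN (pre ++ pad) (qOf (pre ++ pad) ^ (4 * k + 13)) = n ∧
      n ≤ qOf (pre ++ pad) ^ (4 * k + 13) ∧ 2 ^ (k + 7) ≤ qOf (pre ++ pad) ∧
      L ≤ qOf (pre ++ pad) := by
  obtain ⟨N₁, hN₁⟩ := exists_large (4 * k + 13) pre.length
  set D := 12 * (k * k + 1) * (7 * (k + 3)) * k with hD
  set T := 2 ^ (4 * k + 12) with hT
  have hT' : 2 ^ (k + 7) ≤ 2 * T := by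
    rw [hT, ← pow_succ']
    exact Nat.pow_le_pow_right (by omega) (by omega)
  refine ⟨numVl k (N₁ + D + 2 * T + L), fun n hn => ?_⟩
  obtain ⟨N, hN, hle, hlt⟩ := exists_len hk hn
  obtain ⟨hpN, hX⟩ := hN₁ N (by omega)
  have hbig : numVl k (N + 1) ≤ (N + 2) ^ (4 * k + 13) := by
    have h1 : numVl k (N + 1) ≤ (N + 2 + 1) ^ (4 * k + 12) := by
      have hq : qOf (List.replicate (N + 1) false) = N + 2 + 1 := by
        unfold qOf; simp
      unfold numVl
      rw [← hq]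
      exact numV_le (by rw [hq]; omega) (by rw [hq]; omega)
    exact h1.trans (next_le (by omega))
  obtain ⟨pad, hpad, hz⟩ := exists_pad (N - pre.length) (n - numVl k N) ((N + 2) ^ (4 * k + 13))
    (by omega) hX
  have hlen : (pre ++ pad).length = N := by
    rw [List.length_append]; omega
  have hq : qOf (pre ++ pad) = N + 2 := by unfold qOf; rw [hlen]
  refine ⟨pad, ?_, ?_, ?_, ?_⟩
  · rw [hq, hz pre, numV_eq, hlen]
    omega
  · rw [hq]; omega
  · rw [hq]; omega
  · rw [hq]; omega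

theorem main_large {c₀ : ℝ} (hc₀ : 0 ≤ c₀) (hc₀' : c₀ < 1 / 16) :
    ∃ k₀ : ℕ, ∀ k ≥ k₀, ∀ M : TM Bool, M.DecidesWL k →
    ∀ᶠ n : ℕ in atTop, (n : ℝ) ^ (c₀ * k) ≤ (M.worstTime n : ℝ) := by
  obtain ⟨C, hC⟩ := exists_trans LS_outBit LS_outLen
  obtain ⟨k₁, hk₁⟩ := exists_nat_ge (1 / (2 * (1 / 16 - c₀)))
  refine ⟨20 * C + 200 + k₁, fun k hk M hM => ?_⟩
  by_contra hO
  obtain ⟨ea1, ea2, ea3, ea4⟩ := exp_conds C k (by omega)
  have hkr : 1 / (2 * (1 / 16 - c₀)) ≤ (k : ℝ) := by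
    have : k₁ ≤ k := by omega
    exact hk₁.trans (by exact_mod_cast this)
  generalize k * (k - 1) / 4 - 1 = a at *
  have hk2 : 2 ≤ k := by omega
  have hk3 : 3 ≤ k := by omega
  have hk1 : 1 ≤ k := by omega
  have ha1 : 1 ≤ a := by omega
  have ek : 2 * k ≤ 4 * k + 13 := by omega
  have ek' : 1 ≤ 4 * k + 13 := by omega
  have hreal := real_cond hk2 hkr hc₀' ea3
  obtain ⟨F, c, hF⟩ := hC k (4 * k + 13)
  obtain ⟨B, C2, hB⟩ := exists_compose F M
  obtain ⟨M1, C1, hM1⟩ := exists_oneTape B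
  obtain ⟨pre, hpre, hcode⟩ := exists_code M1
  obtain ⟨n₁, hn₁⟩ := exists_word hk1 pre (4 * (C1 * (C2 * (c + 1 + 2) + 1) ^ 2) + 4)
  obtain ⟨n, hn, hW⟩ : ∃ n ≥ n₁, (M.worstTime n : ℝ) < (n : ℝ) ^ (c₀ * k) := by
    by_contra h
    apply hO
    rw [eventually_atTop]
    refine ⟨n₁, fun n hn => ?_⟩
    by_contra h'
    exact h ⟨n, hn, not_le.mp h'⟩
  obtain ⟨pad, hnw, hnX, hTq, hL⟩ := hn₁ n hn
  obtain ⟨hacc, hrej⟩ := hcode pad
  generalize hw : pre ++ pad = w at *
  have hN4 : 4 ≤ w.length := by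
    rw [← hw, List.length_append]; omega
  have hq4 : 2 ≤ qOf w := by unfold qOf; omega
  have hq1 : 1 ≤ qOf w := le_trans (by decide) hq4
  have hX1 : qq w ^ k ≤ qOf w ^ (4 * k + 13) := by
    unfold qq
    rw [← pow_two, ← pow_mul]
    exact Nat.pow_le_pow_right hq1 ek
  have hX2 : 2 ^ (k + 7) ≤ qOf w ^ (4 * k + 13) := by
    calc 2 ^ (k + 7) ≤ qOf w ^ 1 := by rw [pow_one]; exact hTq
      _ ≤ qOf w ^ (4 * k + 13) := Nat.pow_le_pow_right hq1 ek'
  obtain ⟨G₀, G₁, hG, henc⟩ := exists_graphs hk2 w hX1 hX2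
  obtain ⟨s₁, hs₁, hcomp⟩ := hF w
  have hcomp' : F.Computes w s₁ (encPair G₀ G₁) := by
    rw [← henc]
    exact hcomp
  have hlen : (encPair G₀ G₁).length ≤ qOf w ^ a := by
    rw [← henc, List.length_map, List.length_range, outLen_eq hX1 hX2, hnw]
    calc 2 * (n * n)
        ≤ qOf w * (qOf w ^ (4 * k + 13) * qOf w ^ (4 * k + 13)) :=
          Nat.mul_le_mul hq4 (Nat.mul_le_mul hnX hnX)
      _ = qOf w ^ (8 * k + 27) := by ring
      _ ≤ qOf w ^ a := Nat.pow_le_pow_right hq1 ea2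
  have hs₂ : M.time (encPair G₀ G₁) ≤ 1 * qOf w ^ a := by
    rw [one_mul]
    refine (M.time_le_worst G₀ G₁).trans ?_
    rw [hnw]
    exact rpow_arith hq1 hnX (by positivity) hreal hW
  have hs₁' : s₁ ≤ c * qOf w ^ a :=
    hs₁.trans (Nat.mul_le_mul_left _ (Nat.pow_le_pow_right hq1 ea1))
  refine diag hk3 hM hN4 hacc hrej G₀ G₁ hG (fun b hb => ?_)
  obtain ⟨s, hs, hBs⟩ := hB w _ _ _ _ hcomp' hb
  obtain ⟨s', hs', hM1s⟩ := hM1 w s b hBs
  exact ⟨s', time_arith rfl hs₁' hs₂ hlen ha1 ea4 hs hs' hL, hM1s⟩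

/-! ### All `k` -/

theorem final_all : ∃ c : ℝ, 0 < c ∧ ∀ k : ℕ, 2 ≤ k → ∀ M : TM Bool, M.DecidesWL k →
    ∀ᶠ n : ℕ in atTop, (n : ℝ) ^ (c * k) ≤ (M.worstTime n : ℝ) := by
  obtain ⟨k₀, hk₀⟩ := main_large (c₀ := 1 / 17) (by norm_num) (by norm_num)
  refine ⟨min (1 / 17) (1 / (k₀ + 1)), by positivity, fun k hk M hM => ?_⟩
  by_cases hkk : k₀ ≤ k
  · filter_upwards [eventually_ge_atTop 1, hk₀ k hkk M hM] with n hn h
    refine le_trans ?_ h
    apply Real.rpow_le_rpow_of_exponent_le (by exact_mod_cast hn)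
    gcongr
    exact min_le_left _ _
  · filter_upwards [eventually_ge_atTop 3] with n hn
    have h3 := hM.le_worstTime hk (n := n) hn
    have hn1 : (1 : ℝ) ≤ n := by
      have : 1 ≤ n := by omega
      exact_mod_cast this
    calc (n : ℝ) ^ (min (1 / 17) (1 / ((k₀ : ℝ) + 1)) * k) ≤ (n : ℝ) ^ (1 : ℝ) := by
          apply Real.rpow_le_rpow_of_exponent_le hn1
          have hk' : (k : ℝ) ≤ k₀ + 1 := by
            have : k ≤ k₀ + 1 := by omega
            exact_mod_cast this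
          calc min (1 / 17) (1 / ((k₀ : ℝ) + 1)) * k ≤ 1 / ((k₀ : ℝ) + 1) * (k₀ + 1) := by
                gcongr
                exact min_le_right _ _
            _ = 1 := by field_simp
      _ = n := Real.rpow_one _
      _ ≤ (n : ℝ) ^ 2 := by nlinarith
      _ ≤ M.worstTime n := by exact_mod_cast h3

theorem final_large {c : ℝ} (hc : c < 1 / 16) : ∃ k₀ : ℕ, ∀ k ≥ k₀, ∀ M : TM Bool,
    M.DecidesWL k → ∀ᶠ n : ℕ in atTop, (n : ℝ) ^ (c * k) ≤ (M.worstTime n : ℝ) := by
  obtain ⟨k₀, hk₀⟩ := main_large (c₀ := max c 0) (le_max_right _ _)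
    (max_lt hc (by norm_num))
  refine ⟨k₀, fun k hk M hM => ?_⟩
  filter_upwards [eventually_ge_atTop 1, hk₀ k hk M hM] with n hn h
  refine le_trans ?_ h
  apply Real.rpow_le_rpow_of_exponent_le (by exact_mod_cast hn)
  gcongr
  exact le_max_left _ _

/-- No exponent `g k = o(k)` suffices. -/
theorem final_littleO (g : ℕ → ℝ) (hg : g =o[atTop] fun k : ℕ => (k : ℝ)) :
    ∀ᶠ k : ℕ in atTop, ∀ M : TM Bool, M.DecidesWL k →
      ¬ ((fun n => (M.worstTime n : ℝ)) =O[atTop] fun n : ℕ => (n : ℝ) ^ g k) := by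
  obtain ⟨c, hc, hmain⟩ := final_all
  have h1 := hg.bound (c := c / 2) (by positivity)
  filter_upwards [h1, eventually_ge_atTop 2] with k hk1 hk2 M hM hO
  rw [Real.norm_of_nonneg (by positivity : (0 : ℝ) ≤ (k : ℝ))] at hk1
  have hgk : g k ≤ c / 2 * k := (le_abs_self _).trans hk1
  obtain ⟨K, hK⟩ := hO.bound
  have hck : 0 < c * k / 2 := by
    have : (0 : ℝ) < k := by
      have : 0 < k := by omega
      exact_mod_cast this
    positivity
  have h2 : Tendsto (fun n : ℕ => (n : ℝ) ^ (c * k / 2)) atTop atTop :=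
    (tendsto_rpow_atTop hck).comp tendsto_natCast_atTop_atTop
  obtain ⟨n, h3, h4, h5, h6⟩ := ((hmain k hk2 M hM).and (hK.and ((eventually_ge_atTop 1).and
    (h2.eventually_gt_atTop K)))).exists
  rw [Real.norm_of_nonneg (by positivity), Real.norm_of_nonneg (by positivity)] at h4
  have hn1 : (1 : ℝ) ≤ n := by exact_mod_cast h5
  have h7 : (n : ℝ) ^ (c * k) ≤ K * (n : ℝ) ^ (c * k / 2) := by
    refine h3.trans (h4.trans ?_)
    have hK0 : 0 ≤ K := by
      by_contra hneg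
      have h8 : K * (n : ℝ) ^ g k < 0 := mul_neg_of_neg_of_pos (not_le.mp hneg) (by positivity)
      have h9 : (0 : ℝ) ≤ (M.worstTime n : ℝ) := by positivity
      linarith
    apply mul_le_mul_of_nonneg_left _ hK0
    apply Real.rpow_le_rpow_of_exponent_le hn1
    linarith
  have h8 : (n : ℝ) ^ (c * k) = (n : ℝ) ^ (c * k / 2) * (n : ℝ) ^ (c * k / 2) := by
    rw [← Real.rpow_add (by positivity)]
    congr 1
    ring
  rw [h8] at h7
  have h9 : (n : ℝ) ^ (c * k / 2) ≤ K := le_of_mul_le_mul_right h7 (by positivity)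
  linarith

end Vale.Agent.P310
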