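import Vale.Agent.P310.TransCount
import Vale.Agent.P312.Compile
import Vale.Agent.P312.LSBasic

/-! # P310 T3, part 2: counter commands with emission and their compilation -/

namespace Vale.Agent.P310.TransLS

open P312 P312.Compile

/-- Commands with emission of bits. -/
inductive ECmd : Type where
  | lift (c : Cmd Bool) : ECmd
  | emit (b : Bool) : ECmd
  | seq (a b : ECmd) : ECmd
  | loop (r : ℕ) (body : ECmd) : ECmd

/-- Big-step semantics with output. -/
inductive ERun (w : List Bool) (B : ℕ) : ECmd → CState → List Bool → CState → Prop where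
  | lift {c s s'} (h : Run w B c s s') : ERun w B (.lift c) s [] s'
  | emit (b s) : ERun w B (.emit b) s [b] s
  | seq {a b s₁ s₂ s₃ u v} (h₁ : ERun w B a s₁ u s₂) (h₂ : ERun w B b s₂ v s₃) :
      ERun w B (.seq a b) s₁ (u ++ v) s₃
  | loopDone {r body s} (h : s.reg r = 0) : ERun w B (.loop r body) s [] s
  | loopStep {r body s₁ s₂ s₃ u v} (h : s₁.reg r ≠ 0) (h₁ : ERun w B body s₁ u s₂)
      (h₂ : ERun w B (.loop r body) s₂ v s₃) : ERun w B (.loop r body) s₁ (u ++ v) s₃

/-- All registers mentioned in the command are `< k`. -/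
def ECmd.RegsBelow (k : ℕ) : ECmd → Prop
  | .lift c => c.RegsBelow k
  | .emit _ => True
  | .seq a b => a.RegsBelow k ∧ b.RegsBelow k
  | .loop r body => r < k ∧ body.RegsBelow k

/-- Compile a command with emission. -/
def ecomp (k : ℕ) : ECmd → Comp Bool (k + 1)
  | .lift c => comp Bool k c
  | .emit _ => moveC Bool (k + 1) .stay
  | .seq a b => seqC (ecomp k a) (ecomp k b)
  | .loop r b => whileC (Fin.ofNat (k + 1) r) (ecomp k b)

/-- The emission of the states. -/
def em (k : ℕ) : (c : ECmd) → (ecomp k c).Q → Option Bool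
  | .lift _ => fun _ => none
  | .emit b => fun _ => some b
  | .seq a b => fun q => Sum.elim (em k a) (em k b) q
  | .loop _ b => fun q => Sum.elim (fun _ => none) (em k b) q

/-- `Comp.Exits` with output. -/
inductive EExits {k : ℕ} (c : Comp Bool k) (e : c.Q → Option Bool) (w : List Bool) (N : ℤ) :
    c.Q → TC k → List Bool → TC k → Prop where
  | done {q x} (hN : x.Ok N) (h : (c.out w q x).1 = none) :
      EExits c e w N q x (e q).toList (act w.length x (c.out w q x).2)
  | step {q x q' y u} (hN : x.Ok N) (h : (c.out w q x).1 = some q')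
      (h' : EExits c e w N q' (act w.length x (c.out w q x).2) u y) :
      EExits c e w N q x ((e q).toList ++ u) y

variable {k : ℕ}

theorem EExits.done' {c : Comp Bool k} {e : c.Q → Option Bool} {w : List Bool} {N : ℤ} {q : c.Q}
    {x y : TC k} {u : List Bool}
    (r : Move × (Fin k → Sy × Move)) (hN : x.Ok N) (h : c.out w q x = (none, r))
    (hy : y = act w.length x r) (hu : u = (e q).toList) : EExits c e w N q x u y := by
  have := EExits.done (c := c) (e := e) (w := w) (N := N) (q := q) (x := x) hN (by rw [h])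
  rw [h] at this
  rw [hy, hu]
  exact this

theorem EExits.step' {c : Comp Bool k} {e : c.Q → Option Bool} {w : List Bool} {N : ℤ} {q : c.Q}
    {x y : TC k} {u v : List Bool}
    (q' : c.Q) (r : Move × (Fin k → Sy × Move)) (hN : x.Ok N) (h : c.out w q x = (some q', r))
    (h' : EExits c e w N q' (act w.length x r) u y) (hv : v = (e q).toList ++ u) :
    EExits c e w N q x v y := by
  rw [hv]
  refine EExits.step (q' := q') hN (by rw [h]) ?_
  rw [h]
  exact h'

theorem EExits.of_exits {c : Comp Bool k} {w : List Bool} {N : ℤ} {q : c.Q} {x y : TC k}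
    (h : c.Exits w N q x y) : EExits c (fun _ => none) w N q x [] y := by
  induction h with
  | @done q x hN h => exact EExits.done' (c.out w q x).2 hN (Prod.ext h rfl) rfl rfl
  | @step q x q' y hN h _ ih =>
    exact EExits.step' q' (c.out w q x).2 hN (Prod.ext h rfl) ih rfl

theorem eseq_right (a b : Comp Bool k) (ea : a.Q → Option Bool) (eb : b.Q → Option Bool)
    (w : List Bool) (N : ℤ) {q : b.Q} {x y : TC k} {u : List Bool}
    (h : EExits b eb w N q x u y) :
    EExits (seqC a b) (fun q => Sum.elim ea eb q) w N (.inr q) x u y := by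
  induction h with
  | @done q x hN h =>
    refine EExits.done' (b.out w q x).2 hN ?_ rfl rfl
    simp only [Comp.out, seqC] at h ⊢
    rw [h]
  | @step q x q' y u hN h _ ih =>
    refine EExits.step' (.inr q') (b.out w q x).2 hN ?_ ih rfl
    simp only [Comp.out, seqC] at h ⊢
    rw [h]

theorem eseq_left (a b : Comp Bool k) (ea : a.Q → Option Bool) (eb : b.Q → Option Bool)
    (w : List Bool) (N : ℤ) {q : a.Q} {x y z : TC k} {u v : List Bool}
    (h : EExits a ea w N q x u y) (h' : EExits b eb w N b.entry y v z) :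
    EExits (seqC a b) (fun q => Sum.elim ea eb q) w N (.inl q) x (u ++ v) z := by
  induction h with
  | @done q x hN h =>
    refine EExits.step' (.inr b.entry) (a.out w q x).2 hN ?_ (eseq_right a b ea eb w N h') rfl
    simp only [Comp.out, seqC] at h ⊢
    rw [h]
  | @step q x q' y u hN h _ ih =>
    refine EExits.step' (.inl q') (a.out w q x).2 hN ?_ (ih h') (by
      simp only [Sum.elim_inl, List.append_assoc])
    simp only [Comp.out, seqC] at h ⊢
    rw [h]

theorem ewhile_body (r : Fin k) (b : Comp Bool k) (eb : b.Q → Option Bool) (w : List Bool) (N : ℤ)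
    {q : b.Q} {x y z : TC k} {u v : List Bool} (h : EExits b eb w N q x u y)
    (h' : EExits (whileC r b) (fun q => Sum.elim (fun _ => none) eb q) w N (whileC r b).entry
      y v z) :
    EExits (whileC r b) (fun q => Sum.elim (fun _ => none) eb q) w N (.inr q) x (u ++ v) z := by
  induction h with
  | @done q x hN h =>
    refine EExits.step' (.inl false) (b.out w q x).2 hN ?_ h' rfl
    simp only [Comp.out, whileC] at h ⊢
    rw [h]
  | @step q x q' y u hN h _ ih =>
    refine EExits.step' (.inr q') (b.out w q x).2 hN ?_ (ih h') (by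
      simp only [Sum.elim_inr, List.append_assoc])
    simp only [Comp.out, whileC] at h ⊢
    rw [h]

theorem ewhile_zero (r : Fin k) (b : Comp Bool k) (eb : b.Q → Option Bool) (w : List Bool)
    {N : ℤ} (hN : 1 ≤ N) (s : CState) (h : s.reg r = 0) :
    EExits (whileC r b) (fun q => Sum.elim (fun _ => none) eb q) w N (whileC r b).entry
      (rep k s) [] (rep k s) := by
  refine EExits.step' (.inl true) _ (rep_ok s (by omega)) rfl (u := []) ?_ rfl
  rw [act_test1]
  refine EExits.done' (.stay, moveOne r .left fun i => (repTest r s).tape i ((repTest r s).pos i))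
    (repTest_ok r s hN) ?_ (act_test2 _ r s).symm rfl
  have h1 : nonBlank ((repTest r s).tape r ((repTest r s).pos r)) = false := by
    simp only [repTest, if_true]
    rw [nonBlank_enc_one]
    simp [h]
  simp only [Comp.out, whileC]
  rw [h1]
  rfl

theorem ewhile_pos (r : Fin k) (b : Comp Bool k) (eb : b.Q → Option Bool) (w : List Bool)
    {N : ℤ} (hN : 1 ≤ N) (s : CState) {y z : TC k} {u v : List Bool}
    (h : s.reg r ≠ 0) (h1 : EExits b eb w N b.entry (rep k s) u y)
    (h2 : EExits (whileC r b) (fun q => Sum.elim (fun _ => none) eb q) w N (whileC r b).entry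
      y v z) :
    EExits (whileC r b) (fun q => Sum.elim (fun _ => none) eb q) w N (whileC r b).entry
      (rep k s) (u ++ v) z := by
  refine EExits.step' (.inl true) _ (rep_ok s (by omega)) rfl (u := u ++ v) ?_ rfl
  rw [act_test1]
  refine EExits.step' (.inr b.entry)
    (.stay, moveOne r .left fun i => (repTest r s).tape i ((repTest r s).pos i))
    (repTest_ok r s hN) ?_ (u := u ++ v) ?_ rfl
  · have h1 : nonBlank ((repTest r s).tape r ((repTest r s).pos r)) = true := by
      simp only [repTest, if_true]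
      rw [nonBlank_enc_one]
      simp [h]
    simp only [Comp.out, whileC]
    rw [h1]
    rfl
  · rw [act_test2]
    exact ewhile_body r b eb w N h1 h2

theorem erun_lt {w : List Bool} {B : ℕ} {c : ECmd} {s s' : CState} {u : List Bool}
    (h : ERun w B c s u s') (t : ℕ)
    (hB : B ≤ 2 ^ t) (hs : ∀ r, s.reg r < 2 ^ t) : ∀ r, s'.reg r < 2 ^ t := by
  induction h with
  | lift h => exact run_lt h t hB hs
  | emit b s => exact hs
  | seq _ _ ih1 ih2 => exact ih2 (ih1 hs)
  | loopDone _ => exact hs
  | loopStep _ _ _ ih1 ih2 => exact ih2 (ih1 hs)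

theorem ecomp_exits {w : List Bool} {B : ℕ} {c : ECmd} {s s' : CState} {u : List Bool}
    (h : ERun w B c s u s')
    (k : ℕ) (hk : c.RegsBelow (k + 1)) (t : ℕ) {N : ℤ} (hN : (t : ℤ) + 1 ≤ N)
    (hB : B ≤ 2 ^ t) (hs : ∀ r, s.reg r < 2 ^ t) :
    EExits (ecomp k c) (em k c) w N (ecomp k c).entry (rep (k + 1) s) u (rep (k + 1) s') := by
  induction h with
  | lift h => exact EExits.of_exits (comp_exits h k hk t hN hB hs)
  | emit b s =>
    refine EExits.done' (.stay, idle fun i => (rep (k + 1) s).tape i ((rep (k + 1) s).pos i))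
      (rep_ok s (by omega)) rfl ?_ rfl
    rw [act_idle]
  | seq h1 h2 ih1 ih2 =>
    exact eseq_left _ _ _ _ w N (ih1 hk.1 hs) (ih2 hk.2 (erun_lt h1 t hB hs))
  | @loopDone r body s h =>
    have hr : ((Fin.ofNat (k + 1) r : Fin (k + 1)) : ℕ) = r := by
      rw [Fin.val_ofNat]; exact Nat.mod_eq_of_lt hk.1
    exact ewhile_zero _ _ _ w (by omega) s (by rw [hr]; exact h)
  | @loopStep r body s1 s2 s3 u v h h1 h2 ih1 ih2 =>
    have hr : ((Fin.ofNat (k + 1) r : Fin (k + 1)) : ℕ) = r := by
      rw [Fin.val_ofNat]; exact Nat.mod_eq_of_lt hk.1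
    exact ewhile_pos _ _ _ w (by omega) s1 (by rw [hr]; exact h) (ih1 hk.2 hs)
      (ih2 hk (erun_lt h1 t hB hs))

/-! ## The whole machine -/

/-- Emission of the states of the whole machine. -/
def mem {c : Comp Bool (k + 1)} (e : c.Q → Option Bool) : MQ c.Q → Option Bool
  | .run q => e q
  | _ => none

/-- Halting with output, head positions in `[0, N]`. -/
inductive EHalts (M : SpaceTM Bool) (e : M.Q → Option Bool) (w : List Bool) (N : ℤ) :
    M.Cfg → List Bool → Prop where
  | done (c : M.Cfg) (h : M.answer c.q ≠ none) (hN : ∀ i, 0 ≤ c.pos i ∧ c.pos i ≤ N) :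
      EHalts M e w N c []
  | step (c : M.Cfg) {u : List Bool} (h : M.answer c.q = none)
      (hN : ∀ i, 0 ≤ c.pos i ∧ c.pos i ≤ N) (h' : EHalts M e w N (M.step w c) u) :
      EHalts M e w N c ((e c.q).toList ++ u)

theorem EHalts.spec {M : SpaceTM Bool} {e : M.Q → Option Bool} {w : List Bool} {N : ℤ}
    {c : M.Cfg} {u : List Bool} (h : EHalts M e w N c u) :
    (∃ s, (∀ j < s, M.answer ((M.step w)^[j] c).q = none) ∧
      M.answer ((M.step w)^[s] c).q ≠ none ∧
      (List.range s).filterMap (fun j => e ((M.step w)^[j] c).q) = u) ∧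
      ∀ j i, 0 ≤ ((M.step w)^[j] c).pos i ∧ ((M.step w)^[j] c).pos i ≤ N := by
  induction h with
  | done c h hN =>
    refine ⟨⟨0, by simp, h, by simp⟩, ?_⟩
    have hfix : M.step w c = c := by
      unfold SpaceTM.step
      split
      · rfl
      · next h' => exact absurd h' h
    intro j
    rw [Function.iterate_fixed hfix]
    exact hN
  | @step c u h hN _ ih =>
    obtain ⟨⟨s, h1, h2, h3⟩, h4⟩ := ih
    refine ⟨⟨s + 1, ?_, ?_, ?_⟩, ?_⟩
    · intro j hj
      rcases j with _ | j
      · exact h
      · rw [Function.iterate_succ_apply]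
        exact h1 j (by omega)
    · rw [Function.iterate_succ_apply]
      exact h2
    · rw [List.range_succ_eq_map, List.filterMap_cons, List.filterMap_map]
      have e1 : ((fun j => e ((M.step w)^[j] c).q) ∘ Nat.succ) =
          fun j => e ((M.step w)^[j] (M.step w c)).q := by
        funext j
        simp only [Function.comp, Nat.succ_eq_add_one, Function.iterate_succ_apply]
      rw [e1, h3]
      simp only [Function.iterate_zero, id]
      cases e c.q <;> rfl
    · intro j
      rcases j with _ | j
      · exact hN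
      · rw [Function.iterate_succ_apply]
        exact h4 j

theorem ehalts_run (c : Comp Bool (k + 1)) (e : c.Q → Option Bool) (w : List Bool) {N : ℤ}
    {q : c.Q} {x y : TC (k + 1)} {u : List Bool} (h : EExits c e w N q x u y)
    (hy : EHalts (machine c) (mem e) w N (cfg c .test0 y) []) :
    EHalts (machine c) (mem e) w N (cfg c (.run q) x) u := by
  induction h with
  | @done q x hN h =>
    have := EHalts.step (M := machine c) (e := mem e) (w := w) (N := N) (cfg c (.run q) x)
      (u := []) rfl hN (by rw [step_run, h]; exact hy)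
    rw [List.append_nil] at this
    exact this
  | @step q x q' y u hN h _ ih =>
    exact EHalts.step (M := machine c) (e := mem e) (w := w) (N := N) (cfg c (.run q) x)
      (u := u) rfl hN (by rw [step_run, h]; exact ih hy)

theorem ehalts_test (c : Comp Bool (k + 1)) (e : c.Q → Option Bool) (w : List Bool) {N : ℤ}
    (hN : 1 ≤ N) (s : CState) :
    EHalts (machine c) (mem e) w N (cfg c .test0 (rep (k + 1) s)) [] := by
  refine EHalts.step (cfg c .test0 (rep (k + 1) s)) (u := []) rfl (rep_ok s (by omega)) ?_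
  rw [step_test0, act_test1]
  refine EHalts.step _ (u := []) rfl (repTest_ok (0 : Fin (k + 1)) s hN) ?_
  rw [step_test1, act_test2]
  refine EHalts.done _ ?_ (rep_ok s (by omega))
  simp [machine, cfg]

theorem ehalts_start (c : Comp Bool (k + 1)) (e : c.Q → Option Bool) (w : List Bool) {N : ℤ}
    (hN : 0 ≤ N) {u : List Bool}
    (h : EHalts (machine c) (mem e) w N
      (cfg c (.run c.entry) (rep (k + 1) ⟨fun _ => 0, 0⟩)) u) :
    EHalts (machine c) (mem e) w N (machine c).init u := by
  have := EHalts.step (M := machine c) (e := mem e) (w := w) (N := N) (machine c).init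
      (u := u) rfl (fun _ => ⟨le_refl _, hN⟩) (by
    have : (machine c).step w (machine c).init =
        cfg c (.run c.entry) (rep (k + 1) ⟨fun _ => 0, 0⟩) := by
      have h1 : (machine c).step w (machine c).init =
        cfg c (.run c.entry)
          ⟨0, fun _ => 0, fun _ => Function.update (fun _ => Sy.blank) 0 .mark⟩ := rfl
      rw [h1]
      simp only [rep]
      congr 2
      funext i x
      by_cases hx : x = 0
      · subst hx; simp [enc_zero]
      · rw [Function.update_of_ne hx]
        simp only [enc, if_neg hx, Nat.zero_div, dg_zero, ite_self]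
    rw [this]
    exact h)
  exact this

theorem card_Sy : Nat.card Sy ≤ 4 := by
  have h : Function.Injective (fun s : Sy => (match s with
      | .blank => 0 | .mark => 1 | .zero => 2 | .one => 3 : Fin 4)) := by
    intro a b h
    cases a <;> cases b <;> simp_all
  have := Nat.card_le_card_of_injective _ h
  simpa using this

/-- A command with emission is computed by a transducer. -/
theorem trans_of_erun (cmd : ECmd) (k : ℕ) (hk : cmd.RegsBelow (k + 1)) :
    ∃ (F : Trans) (c : ℕ), ∀ (w : List Bool) (B : ℕ) (s' : CState) (u : List Bool), 0 < B →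
      ERun w B cmd ⟨fun _ => 0, 0⟩ u s' →
      ∃ s ≤ c * ((w.length + 2) * B ^ (3 * (k + 1))), F.Computes w s u := by
  refine ⟨⟨machine (ecomp k cmd), mem (em k cmd)⟩,
    Nat.card (machine (ecomp k cmd)).Q * 8 ^ (3 * (k + 1)), ?_⟩
  intro w B s' u hB0 hrun
  set N : ℕ := Nat.log 2 B + 2 with hN
  have hH : EHalts (machine (ecomp k cmd)) (mem (em k cmd)) w (N : ℤ)
      (machine (ecomp k cmd)).init u := by
    refine ehalts_start _ _ w (by omega) ?_
    refine ehalts_run _ _ w (ecomp_exits hrun k hk (Nat.log 2 B + 1) (by rw [hN]; push_cast; omega)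
      (Nat.lt_pow_succ_log_self (by norm_num) B).le (fun r => by positivity)) ?_
    exact ehalts_test _ _ w (by omega) s'
  obtain ⟨⟨s, h1, h2, h3⟩, h4⟩ := hH.spec
  refine ⟨s, ?_, h1, h2, h3⟩
  have hb := steps_bound (machine (ecomp k cmd)) w N h4 s h1 h2
  have hk1 : (machine (ecomp k cmd)).k = k + 1 := rfl
  have hΓ : (machine (ecomp k cmd)).Γ = Sy := rfl
  rw [hk1, hΓ] at hb
  have e1 : N + 1 ≤ 2 ^ (N + 1) := Nat.lt_two_pow_self.le
  have e2 : Nat.card Sy ^ (N + 1) ≤ 2 ^ (N + 1) * 2 ^ (N + 1) := by
    calc Nat.card Sy ^ (N + 1) ≤ 4 ^ (N + 1) := Nat.pow_le_pow_left card_Sy _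
      _ = 2 ^ (N + 1) * 2 ^ (N + 1) := by rw [← mul_pow]; norm_num
  have e3 : 2 ^ (N + 1) ≤ 8 * B := by
    have : 2 ^ (Nat.log 2 B) ≤ B := Nat.pow_log_le_self 2 (by omega)
    calc 2 ^ (N + 1) = 8 * 2 ^ (Nat.log 2 B) := by rw [hN]; ring
      _ ≤ 8 * B := by omega
  have e4 : (N + 1) ^ (k + 1) * (Nat.card Sy ^ (N + 1)) ^ (k + 1) ≤
      8 ^ (3 * (k + 1)) * B ^ (3 * (k + 1)) := by
    calc (N + 1) ^ (k + 1) * (Nat.card Sy ^ (N + 1)) ^ (k + 1)
        = ((N + 1) * Nat.card Sy ^ (N + 1)) ^ (k + 1) := by rw [mul_pow]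
      _ ≤ ((8 * B) ^ 3) ^ (k + 1) := by
          apply Nat.pow_le_pow_left
          calc (N + 1) * Nat.card Sy ^ (N + 1)
              ≤ 2 ^ (N + 1) * (2 ^ (N + 1) * 2 ^ (N + 1)) := Nat.mul_le_mul e1 e2
            _ ≤ (8 * B) * ((8 * B) * (8 * B)) :=
                Nat.mul_le_mul e3 (Nat.mul_le_mul e3 e3)
            _ = (8 * B) ^ 3 := by ring
      _ = 8 ^ (3 * (k + 1)) * B ^ (3 * (k + 1)) := by rw [← pow_mul, mul_pow]
  calc s ≤ s + 1 := by omega
    _ ≤ _ := hb
    _ ≤ Nat.card (machine (ecomp k cmd)).Q * ((w.length + 2) *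
          (8 ^ (3 * (k + 1)) * B ^ (3 * (k + 1)))) :=
        Nat.mul_le_mul_left _ (Nat.mul_le_mul_left _ e4)
    _ = _ := by ring

end Vale.Agent.P310.TransLS
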