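import Vale.Agent.P310.Trans

/-! # P310 T3, part 1: a halting machine with bounded heads halts within the number of
configurations -/

namespace Vale.Agent.P310.TransLS

open P312

variable {α : Type}

theorem inp_le (M : SpaceTM α) (w : List α) (j : ℕ) :
    ((M.step w)^[j] M.init).inp ≤ w.length + 1 := by
  induction j with
  | zero => simp [SpaceTM.init]
  | succ j ih =>
    rw [Function.iterate_succ_apply']
    generalize (M.step w)^[j] M.init = c at ih
    unfold SpaceTM.step
    split
    · exact ih
    · simp only [moveInput]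
      split <;> omega

theorem tape_blank (M : SpaceTM α) (w : List α) (N : ℤ)
    (hpos : ∀ j i, 0 ≤ ((M.step w)^[j] M.init).pos i ∧ ((M.step w)^[j] M.init).pos i ≤ N)
    (j : ℕ) (i : Fin M.k) (x : ℤ) (hx : x < 0 ∨ N < x) :
    ((M.step w)^[j] M.init).tape i x = M.blank := by
  induction j with
  | zero => rfl
  | succ j ih =>
    have hp := hpos j i
    rw [Function.iterate_succ_apply']
    generalize (M.step w)^[j] M.init = c at ih hp
    unfold SpaceTM.step
    split
    · exact ih
    · simp only
      rw [Function.update_of_ne (by omega)]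
      exact ih

theorem cfg_inj (M : SpaceTM α) (w : List α) (s : ℕ)
    (h1 : ∀ j < s, M.answer ((M.step w)^[j] M.init).q = none)
    (h2 : M.answer ((M.step w)^[s] M.init).q ≠ none) {i j : ℕ} (hij : i < j) (hj : j ≤ s) :
    (M.step w)^[i] M.init ≠ (M.step w)^[j] M.init := by
  intro h
  have h3 : (M.step w)^[i + (s - j)] M.init = (M.step w)^[s] M.init := by
    have e1 : i + (s - j) = (s - j) + i := by omega
    have e2 : s = (s - j) + j := by omega
    rw [e1, Function.iterate_add_apply, h, ← Function.iterate_add_apply, ← e2]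
  have h4 := h1 (i + (s - j)) (by omega)
  rw [h3] at h4
  exact h2 h4

theorem cfg_ext' {M : SpaceTM α} {c d : M.Cfg} (h1 : c.q = d.q) (h2 : c.inp = d.inp)
    (h3 : c.pos = d.pos) (h4 : c.tape = d.tape) : c = d := by
  cases c; cases d
  simp only at h1 h2 h3 h4
  subst h1 h2 h3 h4
  rfl

theorem steps_bound (M : SpaceTM α) (w : List α) (N : ℕ)
    (hpos : ∀ j i, 0 ≤ ((M.step w)^[j] M.init).pos i ∧ ((M.step w)^[j] M.init).pos i ≤ (N : ℤ))
    (s : ℕ) (h1 : ∀ j < s, M.answer ((M.step w)^[j] M.init).q = none)
    (h2 : M.answer ((M.step w)^[s] M.init).q ≠ none) :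
    s + 1 ≤ Nat.card M.Q * ((w.length + 2) *
      ((N + 1) ^ M.k * (Nat.card M.Γ ^ (N + 1)) ^ M.k)) := by
  have := M.finQ
  have := M.finΓ
  let φ : Fin (s + 1) → M.Q × (Fin (w.length + 2) ×
      ((Fin M.k → Fin (N + 1)) × (Fin M.k → Fin (N + 1) → M.Γ))) := fun j =>
    (((M.step w)^[(j : ℕ)] M.init).q,
      (⟨((M.step w)^[(j : ℕ)] M.init).inp, by have := inp_le M w j; omega⟩,
        (fun i => ⟨(((M.step w)^[(j : ℕ)] M.init).pos i).toNat, by
          have := hpos j i; omega⟩,
         fun i x => ((M.step w)^[(j : ℕ)] M.init).tape i (x : ℕ))))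
  have hφ : Function.Injective φ := by
    intro a b hab
    by_contra hne
    have key : ∀ a b : Fin (s + 1), φ a = φ b →
        (M.step w)^[(a : ℕ)] M.init = (M.step w)^[(b : ℕ)] M.init := by
      intro a b hab
      simp only [φ, Prod.mk.injEq, Fin.mk.injEq] at hab
      obtain ⟨e1, e2, e3, e4⟩ := hab
      refine cfg_ext' e1 e2 ?_ ?_
      · funext i
        have := congrFun e3 i
        simp only [Fin.mk.injEq] at this
        have p1 := hpos a i
        have p2 := hpos b i
        omega
      · funext i x
        by_cases hx : x < 0 ∨ (N : ℤ) < x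
        · rw [tape_blank M w N hpos a i x hx, tape_blank M w N hpos b i x hx]
        · have hx' : x.toNat < N + 1 := by omega
          have := congrFun (congrFun e4 i) ⟨x.toNat, hx'⟩
          simp only at this
          have e5 : ((x.toNat : ℕ) : ℤ) = x := by omega
          rw [e5] at this
          exact this
    have hk := key a b hab
    rcases lt_or_gt_of_ne (fun h => hne (Fin.ext h) : (a : ℕ) ≠ b) with h | h
    · exact cfg_inj M w s h1 h2 h (by omega) hk
    · exact cfg_inj M w s h1 h2 h (by omega) hk.symm
  have hc := Nat.card_le_card_of_injective φ hφ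
  rw [Nat.card_prod, Nat.card_prod, Nat.card_prod, Nat.card_fun, Nat.card_fun, Nat.card_fun] at hc
  simpa [Nat.card_eq_fintype_card] using hc

end Vale.Agent.P310.TransLS
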